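import Vale.Agent.P049.TS.Avg480.A5r

/-!
Rate lemma `A5`: final statement.
-/

set_option linter.unusedSectionVars false
set_option exponentiation.threshold 3000

namespace Vale.Agent.P049.TS.A480

open Matrix Finset Vale.Agent.P049.TS.Asm

variable {n d k : ℕ}
variable {ι : Type*} [Fintype ι] [DecidableEq ι] {F : Finset ι} {Z Zp Zm : Matrix ι ι ℝ} {ε : ℝ}
  {forb : ι → ι → Prop}

/-- the values of the parameters -/
noncomputable def x5 (n d k : ℕ) : ℕ → ℝ :=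
  env18 (bC n d k) (tC n d k) (sC n d k) (√(2 * thC n d k)) (√(thC n d k))
      (2 * Asm.Em (LL n) (XX n d k) 680 699 695 714) (1 + sC n d k) (√(Nk n d k)) (eC n d k)
      ((26 + (d : ℝ) * (d + 1)) * Asm.Em (LL n) (XX n d k) 680 699 695 714) 2 1 2
      ((5 * (d : ℝ) ^ 2 + 1) * (sR n : ℝ) ^ 384)
      (Nk n d k / thC n d k) (1 / Nk n d k) (Nk n d k) (Asm.gC n d k)

/-- the constants -/
noncomputable def c5 (d : ℕ) : ℕ → ℝ :=
  env18 1 2 1 2 1 2 2 1 ((d : ℝ) + 25) (26 + (d : ℝ) * (d + 1)) 2 1 2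
      (5 * (d : ℝ) ^ 2 + 1) 4 1 1 1

theorem gC_le_Em (hσ : 2000 ≤ sR n) (hN0 : 0 < Nk n d k) :
    Asm.gC n d k ≤ 1 * Asm.Em (LL n) (XX n d k) 680 699 2700 2776 := by
  have hC0 := CC_pos hσ
  have hσ0 := sR_pos hσ
  have h6 : Nk n d k / (sR n : ℝ) ^ 5 = Asm.Em (LL n) (XX n d k) 680 699 2700 2776 := by
    rw [div_eq_iff (by positivity), sR_pow_Em hσ (X := XX n d k)
      (show (680 : ℝ) < 699 by norm_num) 5, EmM, Nk_Em hN0]
    norm_num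
  rw [one_mul, ← h6]
  unfold Asm.gC
  rw [div_le_div_iff₀ (by positivity) (by positivity)]
  have h7 : Nk n d k * CC n ≤ (Nk n d k + CC n) ^ 2 := by
    nlinarith [mul_pos hN0 hC0, sq_nonneg (Nk n d k), sq_nonneg (CC n)]
  have h8 : 0 ≤ Nk n d k * (sR n : ℝ) ^ 5 := by positivity
  calc Nk n d k ^ 2 * CC n * (sR n : ℝ) ^ 5 =
        (Nk n d k * (sR n : ℝ) ^ 5) * (Nk n d k * CC n) := by ring
    _ ≤ (Nk n d k * (sR n : ℝ) ^ 5) * (Nk n d k + CC n) ^ 2 := mul_le_mul_of_nonneg_left h7 h8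
    _ = _ := by ring

theorem q_le_Em (hσ : 2000 ≤ sR n) (hk1 : k2 n d ≤ k) (hk : k < k3 n d) (hN0 : 0 < Nk n d k) :
    Nk n d k / thC n d k ≤ 4 * Asm.Em (LL n) (XX n d k) 680 699 (-40) (-4) := by
  have h6 := thC_ge hσ hk1 hk
  rw [div_le_iff₀ (thC_pos hσ hN0), Nk_Em hN0]
  have h7 : Asm.Em (LL n) (XX n d k) 680 699 2720 2796 =
      Asm.Em (LL n) (XX n d k) 680 699 (-40) (-4) *
        Asm.Em (LL n) (XX n d k) 680 699 2760 2800 := by rw [EmM]; norm_num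
  rw [h7]
  have := mul_le_mul_of_nonneg_left h6 (Asm.Em_pos (LL n) (XX n d k) 680 699 (-40) (-4)).le
  linarith

theorem inv_le_Em (hN0 : 0 < Nk n d k) :
    1 / Nk n d k ≤ 1 * Asm.Em (LL n) (XX n d k) 680 699 (-2720) (-2796) := by
  rw [div_le_iff₀ hN0, Nk_Em hN0, one_mul, EmM]
  norm_num [Asm.Em_zero]

theorem tau_le_Em (hσ : 2000 ≤ sR n) :
    (5 * (d : ℝ) ^ 2 + 1) * (sR n : ℝ) ^ 384 ≤
      (5 * (d : ℝ) ^ 2 + 1) * Asm.Em (LL n) (XX n d k) 680 699 1536 1536 := by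
  have h6 : Asm.Em (LL n) (XX n d k) 680 699 1536 1536 = (sR n : ℝ) ^ 384 := by
    rw [sR_pow_Em hσ (X := XX n d k) (show (680 : ℝ) < 699 by norm_num) 384]
    norm_num
  rw [h6]

theorem x5_bound (hσ : 2000 ≤ sR n) (hd : 3 ≤ d) (hk1 : k2 n d ≤ k) (hk : k < k3 n d) :
    ∀ j, j < 18 → 0 ≤ x5 n d k j ∧ 0 ≤ c5 d j ∧
      x5 n d k j ≤ c5 d j * Asm.Em (LL n) (XX n d k) 680 699 (y5a j) (y5b j) := by
  have hσ0 := sR_pos hσ
  have hN0 : 0 < Nk n d k := lt_of_le_of_lt (by positivity) (Nk_gt3 hk)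
  have R := Asm.rg3 hσ hk1 hk
  have hth := thC_pos hσ hN0
  have hd0 : (0 : ℝ) ≤ d := Nat.cast_nonneg d
  have Mpos : ∀ y1 y2, 0 < Asm.Em (LL n) (XX n d k) 680 699 y1 y2 :=
    fun y1 y2 => Asm.Em_pos _ _ _ _ _ _
  have M0 : Asm.Em (LL n) (XX n d k) 680 699 0 0 = 1 := Asm.Em_zero _ _ _ _
  have c1 := bC_nonneg n d k
  have c2 := tC_nonneg n d k
  have c3 := sC_nonneg n d k
  have hwM := sqrt_thC_le (d := d) (k := k) hσ hN0
  have cc : ∀ x : ℝ, 0 ≤ x → 0 ≤ x ∧ 0 ≤ x ∧ x ≤ x * Asm.Em (LL n) (XX n d k) 680 699 0 0 :=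
    fun x hx => ⟨hx, hx, by rw [M0, mul_one]⟩
  intro j hj
  interval_cases j
  · refine ⟨c1, zero_le_one, ?_⟩
    show bC n d k ≤ 1 * Asm.Em (LL n) (XX n d k) 680 699 1325 1306
    rw [one_mul]; exact bC_Em.le
  · exact ⟨c2, zero_le_two, tC_Em⟩
  · refine ⟨c3, zero_le_one, ?_⟩
    show sC n d k ≤ 1 * Asm.Em (LL n) (XX n d k) 680 699 208 208
    rw [one_mul]; exact sC_Em.le
  · exact ⟨Real.sqrt_nonneg _, zero_le_two, (sqrt_two_thC_le hth).trans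
      (mul_le_mul_of_nonneg_left hwM zero_le_two)⟩
  · refine ⟨Real.sqrt_nonneg _, zero_le_one, ?_⟩
    show √(thC n d k) ≤ 1 * Asm.Em (LL n) (XX n d k) 680 699 1390 1428
    rw [one_mul]; exact hwM
  · exact ⟨mul_nonneg zero_le_two (Mpos _ _).le, zero_le_two, le_rfl⟩
  · exact ⟨add_nonneg zero_le_one c3, zero_le_two, one_add_sC R⟩
  · refine ⟨Real.sqrt_nonneg _, zero_le_one, ?_⟩
    show √(Nk n d k) ≤ 1 * Asm.Em (LL n) (XX n d k) 680 699 1360 1398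
    rw [one_mul]; exact (sqrt_Nk_eq hN0).le
  · exact ⟨eC_nonneg _ _ _, add_nonneg hd0 (by norm_num), eC_Em.le⟩
  · have hD : (0 : ℝ) ≤ 26 + (d : ℝ) * (d + 1) := by positivity
    exact ⟨mul_nonneg hD (Mpos _ _).le, hD, le_rfl⟩
  · exact cc 2 zero_le_two
  · exact cc 1 zero_le_one
  · exact cc 2 zero_le_two
  · have h5 : (0 : ℝ) ≤ 5 * (d : ℝ) ^ 2 + 1 := by positivity
    exact ⟨mul_nonneg h5 (by positivity), h5, tau_le_Em hσ⟩
  · exact ⟨div_nonneg hN0.le hth.le, (by norm_num : (0 : ℝ) ≤ 4), q_le_Em hσ hk1 hk hN0⟩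
  · exact ⟨div_nonneg zero_le_one hN0.le, zero_le_one, inv_le_Em hN0⟩
  · refine ⟨hN0.le, zero_le_one, ?_⟩
    show Nk n d k ≤ 1 * Asm.Em (LL n) (XX n d k) 680 699 2720 2796
    rw [one_mul]; exact (Nk_Em hN0).le
  · exact ⟨(gC_pos hσ hN0).le, zero_le_one, gC_le_Em hσ hN0⟩

theorem a5_bound (hσ : 2000 ≤ sR n) (hd : 3 ≤ d) (hk1 : k2 n d ≤ k) (hk : k < k3 n d) :
    a5e.ev (x5 n d k) ≤ a5e.cs (c5 d) * Asm.Em (LL n) (XX n d k) 680 699 2716 2792 := by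
  obtain ⟨e1, e2, e3⟩ := env18_bound (x5_bound hσ hd hk1 hk) fun j hj =>
    ⟨env18_zero _ _ _ _ _ _ _ _ _ _ _ _ _ _ _ _ _ _ hj,
      env18_zero _ _ _ _ _ _ _ _ _ _ _ _ _ _ _ _ _ _ hj⟩
  exact Ex.bound a5e (Asm.rg3 hσ hk1 hk) _ _ a5e_1 a5e_2 e1 e2 e3

theorem EV_nonneg {b t s v w r z n e G ρ ν η : ℝ} (hb : 0 ≤ b) (ht : 0 ≤ t) (hs : 0 ≤ s)
    (hv : 0 ≤ v) (hw : 0 ≤ w) (hr : 0 ≤ r) (hz : 0 ≤ z) (hn : 0 ≤ n) (he : 0 ≤ e) (hG : 0 ≤ G)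
    (hρ : 0 ≤ ρ) (hν : 0 ≤ ν) (hη : 0 ≤ η) : 0 ≤ EV b t s v w r z n e G ρ ν η := by
  unfold EV; positivity

theorem Qe_nonneg {s w i N : ℝ} (hs : 0 ≤ s) (hw : 0 ≤ w) (hi : 0 ≤ i) (hN : 0 ≤ N) :
    0 ≤ 2 * (s * w) + s ^ 2 * w + s ^ 4 + 2 * i * (3 * N + 2 * (s * w) + w ^ 2) := by
  positivity

/-- **rate of `A5`** -/
theorem rate_A5 (d : ℕ) (hd : 3 ≤ d) : ∃ C : ℝ, ∃ s0 : ℕ, ∀ (ι : Type) [Fintype ι]
    [DecidableEq ι] (n k : ℕ) (F : Finset ι) (Zp Zm : Matrix ι ι ℝ) (forb : ι → ι → Prop),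
    s0 ≤ sR n → EnvC n d k F Zp Zm forb → ∀ (ε : ℝ) (Z : Matrix ι ι ℝ), Sgn Zp Zm ε Z →
    ∑ p ∈ adm F forb Zp Zm,
      (A5c n d (k + 1) ((F.erase p.1).erase p.2) (upd Z p.1 p.2) - A5c n d k F Z) ≤
      C * rT n d k := by
  refine ⟨a5e.cs (c5 d), 2000, ?_⟩
  intro ι _ _ n k F Zp Zm forb hσ h ε Z hs
  have o := h.oneC hs
  have hε : ε = 1 ∨ ε = -1 := by
    rcases hs with ⟨h, -⟩ | ⟨h, -⟩
    · exact Or.inl h
    · exact Or.inr h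
  have hσ0 := sR_pos hσ
  have hs1 := sR_ge hσ
  have hNgt := Nk_gt3 h.k_lt
  have hN8 : 8 ≤ Nk n d k := by
    have h2 : (sR n : ℝ) ≤ (sR n : ℝ) ^ 680 := le_self_pow₀ (by linarith) (by norm_num)
    linarith
  have hN0 : 0 < Nk n d k := by linarith
  have hC0 := CC_pos hσ
  obtain ⟨dl1, dl2, dl3, dl4, dl5⟩ := dil (N := Nk n d k) (C := CC n) (s := (sR n : ℝ) ^ 700)
    (th := thC n d k) (th' := thC n d (k + 1)) hC0 hN8 (by positivity) rfl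
    (by unfold thC; rw [Nk_succ])
  have hNth : Nk n d k ≤ thC n d k := by
    refine Nk_le_thC hσ ?_ (Nk_le2 h.k_ge)
    have : (0 : ℝ) ≤ (sR n : ℝ) ^ 680 := by positivity
    linarith
  have hw2 : √(thC n d k) ^ 2 = thC n d k := Real.sq_sqrt dl2.le
  have hw0 : 0 ≤ √(thC n d k) := Real.sqrt_nonneg _
  have D := driftC hσ hd h hs
  have hP : Vt 0 F Z = gV2 F Z := Vt_zero F Z
  have hT0 : 0 ≤ (Z ^ 2).trace := by linarith [o.T2_ge]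
  have hQ := Q4_half hd o.sg hε (sC_nonneg n d k) hw0 (by exact o.S) (by rw [hw2]; exact o.V2r)
    hT0 o.T2_le h.card hN0 (rfl : 1 / Nk n d k = 1 / Nk n d k)
  have hQe : 0 ≤ 2 * (sC n d k * √(thC n d k)) +
      sC n d k ^ 2 * √(thC n d k) + sC n d k ^ 4 + 2 * (1 / Nk n d k) * (3 * Nk n d k +
        2 * (sC n d k * √(thC n d k)) + √(thC n d k) ^ 2) :=
    Qe_nonneg (sC_nonneg n d k) hw0 (div_nonneg zero_le_one hN0.le) hN0.le
  have hPT : 0 ≤ gV2 F Z - 2 * (Z ^ 2).trace + Nk n d k := by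
    have hp : Pr F Z (bC n d k) (tC n d k) (sC n d k) (√(2 * thC n d k)) (√(thC n d k))
      (2 * Asm.Em (LL n) (XX n d k) 680 699 695 714) (1 + sC n d k) (√(Nk n d k)) :=
      prC hσ hd h.k_ge h.k_lt h.card hε o
    rw [← h.card, ← hP, ← hp.Vs_eq]
    exact Vs_nonneg F Z
  have hEV : 0 ≤ 8 * ((5 * (d : ℝ) ^ 2 + 1) * (sR n : ℝ) ^ 384) +
      EV (bC n d k) (tC n d k) (sC n d k) (√(2 * thC n d k)) (√(thC n d k))
      (2 * Asm.Em (LL n) (XX n d k) 680 699 695 714) (1 + sC n d k) (√(Nk n d k)) (eC n d k)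
      ((26 + (d : ℝ) * (d + 1)) * Asm.Em (LL n) (XX n d k) 680 699 695 714) 2 1 2 := by
    have h5 := (Asm.Em_pos (LL n) (XX n d k) 680 699 695 714).le
    have h6 : 0 ≤ 8 * ((5 * (d : ℝ) ^ 2 + 1) * (sR n : ℝ) ^ 384) :=
      mul_nonneg (by norm_num) (mul_nonneg (by positivity) (pow_nonneg hσ0.le 384))
    have h7 : 0 ≤ (26 + (d : ℝ) * (d + 1)) := by positivity
    refine add_nonneg h6 (EV_nonneg (bC_nonneg _ _ _) (tC_nonneg _ _ _)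
      (sC_nonneg _ _ _) (Real.sqrt_nonneg _) hw0 (mul_nonneg zero_le_two h5)
      (add_nonneg zero_le_one (sC_nonneg _ _ _)) (Real.sqrt_nonneg _) (eC_nonneg _ _ _)
      (mul_nonneg h7 h5) zero_le_two zero_le_one zero_le_two)
  rw [hP, hw2, h.card] at D
  have hcardA : ((adm F forb Zp Zm).card : ℝ) ≤ Nk n d k ^ 2 := by
    have e1 := Finset.card_le_card (adm_subset F forb Zp Zm)
    rw [Finset.card_product] at e1
    have e2 : ((adm F forb Zp Zm).card : ℝ) ≤ (F.card : ℝ) * F.card := by exact_mod_cast e1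
    rw [h.card] at e2
    linarith [sq (Nk n d k)]
  have core := A5_core (c := ((adm F forb Zp Zm).card : ℝ)) (g := Asm.gC n d k) hC0 hN8 dl1 dl2 dl3
    dl4 dl5 (by rw [← hP]; exact Vt_nonneg _ _ _) o.V2r hT0 o.T2_le o.TF (gC_pos hσ hN0).le
    (Finset.sum_nonneg fun _ _ => Finset.sum_nonneg fun _ _ => by positivity) hQ hQe hPT hNth hEV
    hcardA D
  have e0 : ∑ p ∈ adm F forb Zp Zm,
      (A5c n d (k + 1) ((F.erase p.1).erase p.2) (upd Z p.1 p.2) - A5c n d k F Z) =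
      (∑ p ∈ adm F forb Zp Zm, (Vt 0 ((F.erase p.1).erase p.2) (upd Z p.1 p.2) - gV2 F Z)) /
        thC n d (k + 1) + ((adm F forb Zp Zm).card : ℝ) *
        (gV2 F Z * (1 / thC n d (k + 1) - 1 / thC n d k)) := by
    rw [Finset.sum_div, ← nsmul_eq_mul, ← Finset.sum_const, ← Finset.sum_add_distrib]
    refine Finset.sum_congr rfl fun p _ => ?_
    have e3 : Vt 0 ((F.erase p.1).erase p.2) (upd Z p.1 p.2) =
        gV2 ((F.erase p.1).erase p.2) (upd Z p.1 p.2) := Vt_zero _ _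
    rw [e3]
    unfold A5c
    field_simp
    ring
  have B := a5_bound hσ hd h.k_ge h.k_lt
  rw [x5, ← a5e_ev] at B
  rw [e0, rT_Em]
  exact core.trans B

end Vale.Agent.P049.TS.A480
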