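import Vale.Agent.P049.TS.Avg480.V2abs
import Vale.Agent.P049.TS.Asm.EnvC2
import Vale.Agent.P049.TS.Shell.Sign2

/-!
Rate lemma `A5` (`V₂` against `thC = σ^700 N²/(N+C)²`) of the phase IIIa.
-/

set_option linter.unusedSectionVars false
set_option exponentiation.threshold 3000

namespace Vale.Agent.P049.TS.A480

open Matrix Finset Vale.Agent.P049.TS.Asm

/-- dilution of the threshold -/
theorem dil {N C s th th' : ℝ} (hC : 0 < C) (hN : 8 ≤ N) (hs : 0 < s)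
    (h1 : th = s * N ^ 2 / (N + C) ^ 2) (h2 : th' = s * (N - 2) ^ 2 / (N - 2 + C) ^ 2) :
    0 < th' ∧ 0 < th ∧ th' ≤ th ∧ th ≤ 2 * th' ∧
      N ^ 2 * (1 - th' / th) ≤ 4 * (N * C / (N + C)) + 8 := by
  have hN0 : 0 < N := by linarith
  have hN2 : 0 < N - 2 := by linarith
  have hNC : 0 < N + C := by linarith
  have hNC2 : 0 < N - 2 + C := by linarith
  have p1 : 0 < th := by rw [h1]; positivity
  have p2 : 0 < th' := by rw [h2]; positivity
  set x := (N - 2) * (N + C) / (N * (N - 2 + C)) with hx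
  have e : th' = th * x ^ 2 := by
    rw [h1, h2, hx]; field_simp
  have e1 : 1 - x = 2 * C / (N * (N - 2 + C)) := by
    rw [hx]; field_simp; ring
  have hx1 : x ≤ 1 := by
    have : 0 ≤ 2 * C / (N * (N - 2 + C)) := by positivity
    linarith
  have hx2 : 3 / 4 ≤ x := by
    rw [hx, div_le_div_iff₀ (by norm_num) (by positivity)]
    nlinarith [mul_pos hC hN0, mul_pos hN0 hN0]
  have hxx : x ^ 2 ≤ 1 := by nlinarith
  have hxx2 : 1 / 2 ≤ x ^ 2 := by nlinarith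
  refine ⟨p2, p1, ?_, ?_, ?_⟩
  · rw [e]; nlinarith
  · rw [e]; nlinarith
  · have e2 : th' / th = x ^ 2 := by rw [e]; field_simp
    rw [e2]
    have h3 : 1 - x ^ 2 ≤ 2 * (2 * C / (N * (N - 2 + C))) := by
      rw [← e1]; nlinarith
    have h4 : N ^ 2 * (2 * (2 * C / (N * (N - 2 + C)))) ≤ 4 * (N * C / (N + C)) + 8 := by
      have e3 : N ^ 2 * (2 * (2 * C / (N * (N - 2 + C)))) = 4 * (N * C / (N - 2 + C)) := by
        field_simp; ring
      rw [e3]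
      have e4 : 4 * (N * C / (N - 2 + C)) =
          4 * (N * C / (N + C)) + 8 * (N * C) / ((N - 2 + C) * (N + C)) := by
        field_simp; ring
      rw [e4]
      have : 8 * (N * C) / ((N - 2 + C) * (N + C)) ≤ 8 := by
        rw [div_le_iff₀ (by positivity)]
        nlinarith [mul_pos hC hN0, mul_pos hN2 hNC]
      linarith
    exact (mul_le_mul_of_nonneg_left h3 (sq_nonneg N)).trans h4

/-- the real-number part of the rate `A5` -/
theorem A5_core {N C th th' P T Q Qe g E S c : ℝ} (hC : 0 < C) (hN : 8 ≤ N)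
    (ht' : 0 < th') (ht : 0 < th) (hle : th' ≤ th) (h2 : th ≤ 2 * th')
    (hd : N ^ 2 * (1 - th' / th) ≤ 4 * (N * C / (N + C)) + 8)
    (hP0 : 0 ≤ P) (hP : P ≤ th) (hT0 : 0 ≤ T) (hT : T ≤ N) (hTg : T - 1 ≤ N ^ 2 / (N + C) + g)
    (hg : 0 ≤ g) (hQ0 : 0 ≤ Q) (hQ : Q ≤ T / 2 + Qe) (hQe : 0 ≤ Qe) (hPT : 0 ≤ P - 2 * T + N)
    (hNt : N ≤ th) (hE : 0 ≤ E) (hc : c ≤ N ^ 2)
    (hS : S ≤ -2 * N * P + 4 * ((T - N) * P) + 8 * T + 15 / 4 * (Q * (P - 2 * T + N)) + th * E) :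
    S / th' + c * (P * (1 / th' - 1 / th)) ≤
      2 * (20 + 4 * g + 2 * (N * (N / th)) + 8 * Qe + E) := by
  have hN0 : 0 < N := by linarith
  have hNC : 0 < N + C := by linarith
  have hq : 0 ≤ 1 - th' / th := by
    rw [sub_nonneg, div_le_one ht]; exact hle
  have e1 : S / th' + c * (P * (1 / th' - 1 / th)) = (S + c * (P * (1 - th' / th))) / th' := by
    field_simp
  rw [e1, div_le_iff₀ ht']
  have hPq : 0 ≤ P * (1 - th' / th) := mul_nonneg hP0 hq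
  have k1 : c * (P * (1 - th' / th)) ≤ P * (4 * (N * C / (N + C)) + 8) := by
    calc c * (P * (1 - th' / th)) ≤ N ^ 2 * (P * (1 - th' / th)) :=
          mul_le_mul_of_nonneg_right hc hPq
      _ = P * (N ^ 2 * (1 - th' / th)) := by ring
      _ ≤ _ := mul_le_mul_of_nonneg_left hd hP0
  have e2 : N ^ 2 / (N + C) = N - N * C / (N + C) := by field_simp; ring
  rw [e2] at hTg
  have k2 : 4 * ((T - N) * P) + P * (4 * (N * C / (N + C)) + 8) ≤ (12 + 4 * g) * P := by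
    nlinarith [mul_le_mul_of_nonneg_right hTg hP0]
  have k3 : 15 / 4 * (Q * (P - 2 * T + N)) ≤ 15 / 8 * (N * P) + 15 / 8 * N ^ 2 +
      15 / 2 * (Qe * th) := by
    have a1 : Q * (P - 2 * T + N) ≤ (N / 2 + Qe) * (P + N) :=
      mul_le_mul (by linarith) (by linarith) hPT (by positivity)
    have a2 : Qe * (P + N) ≤ Qe * (2 * th) := mul_le_mul_of_nonneg_left (by linarith) hQe
    nlinarith
  have e3 : N * (N / th) * th = N ^ 2 := by field_simp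
  have k4 : (12 + 4 * g) * P ≤ (12 + 4 * g) * th :=
    mul_le_mul_of_nonneg_left hP (by linarith)
  have k5 : 0 ≤ N * P := mul_nonneg hN0.le hP0
  have main : S + c * (P * (1 - th' / th)) ≤
      (20 + 4 * g + 2 * (N * (N / th)) + 8 * Qe + E) * th := by
    have e4 : (20 + 4 * g + 2 * (N * (N / th)) + 8 * Qe + E) * th =
        (20 + 4 * g) * th + 2 * (N * (N / th) * th) + 8 * (Qe * th) + th * E := by ring
    rw [e4, e3]
    have : 0 ≤ Qe * th := mul_nonneg hQe ht.le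
    have : 0 ≤ N ^ 2 := sq_nonneg N
    linarith
  refine main.trans ?_
  have hX : 0 ≤ 20 + 4 * g + 2 * (N * (N / th)) + 8 * Qe + E := by positivity
  nlinarith

/-! ### the numbers -/

/-- the environment `b t s v w r z n e G ρ ν η τ q i N g` -/
def env18 {α : Type*} [Zero α] (b t s v w r z n e G ρ ν η τ q i N g : α) : ℕ → α
  | 0 => b | 1 => t | 2 => s | 3 => v | 4 => w | 5 => r | 6 => z | 7 => n | 8 => e | 9 => G
  | 10 => ρ | 11 => ν | 12 => η | 13 => τ | 14 => q | 15 => i | 16 => N | 17 => g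
  | _ => 0

/-- `EV` as an expression -/
abbrev evE : Ex :=
  2 * ((.v 7) * (.v 9)) + 8 * ((.v 8) * (.v 0)) + 8 * ((.v 9) * (.v 2) * (.v 0))
    + 4 * ((.v 9) * (.v 3)) +
    6 * (4 * (((.v 1) + (.v 2) ^ 2) * (.v 0)) + 8 * (((.v 5) * (.v 2) + (.v 2) ^ 3) * (.v 0))
      + 3 * ((.v 2) ^ 2 * (.v 5) ^ 2) + 5 * ((.v 3) * (.v 2)) +
      5 * (((.v 5) + (.v 2) ^ 2) * (.v 3)) + 5 * ((.v 0) * (.v 5) * (.v 2)) + 3 * (.v 0) ^ 2) +
    6 * (2 * ((.v 7) * ((.v 5) + (.v 2) ^ 2)) + 3 * ((.v 11) * ((.v 0) * (.v 5) * (.v 2)))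
      + (.v 7) * (.v 5) * (.v 10) + (.v 7) * (.v 2) ^ 2 * (.v 10)) +
    4 * ((.v 6) * (.v 5) * (.v 4) * (.v 10) ^ 2) +
    210 * (9 * (.v 0) ^ 2 + 16 * ((.v 2) ^ 2 * (.v 5) ^ 2)
      + 7 * ((.v 2) ^ 4 * ((.v 6) ^ 2 * ((.v 5) ^ 2 * (.v 10) ^ 2))) +
      24 * ((.v 6) ^ 2 * (.v 2) ^ 2 * ((.v 5) ^ 2 * (.v 10) ^ 2))
      + 50 * ((.v 10) ^ 2 * ((.v 6) ^ 2 * ((.v 6) * (.v 5) * (.v 4)))) +
      50 * ((.v 2) ^ 4 * (.v 10) ^ 2 * ((.v 6) ^ 2 * (.v 5) ^ 2))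
      + 24 * ((.v 6) ^ 2 * ((.v 5) ^ 2 * (.v 2) ^ 2)) +
      7 * (((.v 0) ^ 2 + (.v 2) * (.v 4)) * (1 + (.v 12))))

/-- the right-hand side of `A5` -/
abbrev a5e : Ex :=
  2 * (20 + 4 * (.v 17) + 2 * ((.v 16) * (.v 14)) +
    8 * (2 * ((.v 2) * (.v 4)) + (.v 2) ^ 2 * (.v 4) + (.v 2) ^ 4 +
      2 * (.v 15) * (3 * (.v 16) + 2 * ((.v 2) * (.v 4)) + (.v 4) ^ 2)) +
    (8 * (.v 13) + evE))

theorem a5e_ev (b t s v w r z n e G ρ ν η τ q i N g : ℝ) :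
    2 * (20 + 4 * g + 2 * (N * q) +
      8 * (2 * (s * w) + s ^ 2 * w + s ^ 4 + 2 * i * (3 * N + 2 * (s * w) + w ^ 2)) +
      (8 * τ + EV b t s v w r z n e G ρ ν η))
      = a5e.ev (env18 b t s v w r z n e G ρ ν η τ q i N g) := by
  simp only [a5e, evE, Ex.ev_add, Ex.ev_mul, Ex.ev_pow, Ex.ev_ofNat, Ex.ev_v, env18, EV]
  push_cast
  ring

/-- exponents (times 4) at `N = σ^680` -/
def y5a : ℕ → ℤ :=
  env18 1325 1360 208 1390 1390 695 208 1360 1360 695 0 0 0 1536 (-40) (-2720) 2720 2700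
/-- exponents (times 4) at `N = σ^699` -/
def y5b : ℕ → ℤ :=
  env18 1306 1398 208 1428 1428 714 208 1398 1398 714 0 0 0 1536 (-4) (-2796) 2796 2776

theorem a5e_1 : a5e.y y5a ≤ 2716 := by decide
theorem a5e_2 : a5e.y y5b ≤ 2792 := by decide

end Vale.Agent.P049.TS.A480
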