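import Vale.Agent.P049.TS.Avg480.A5

/-!
Rate lemma `A5`: the environment and the final statement.
-/

set_option linter.unusedSectionVars false
set_option exponentiation.threshold 3000

namespace Vale.Agent.P049.TS.A480

open Matrix Finset Vale.Agent.P049.TS.Asm

theorem env18_bound {L X xl xh : ℝ} {x κ : ℕ → ℝ} {y1 y2 : ℕ → ℤ}
    (h : ∀ j, j < 18 → 0 ≤ x j ∧ 0 ≤ κ j ∧ x j ≤ κ j * Asm.Em L X xl xh (y1 j) (y2 j))
    (h0 : ∀ j, 18 ≤ j → x j = 0 ∧ κ j = 0) :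
    (∀ j, 0 ≤ x j) ∧ (∀ j, 0 ≤ κ j) ∧ ∀ j, x j ≤ κ j * Asm.Em L X xl xh (y1 j) (y2 j) := by
  refine ⟨fun j => ?_, fun j => ?_, fun j => ?_⟩ <;> rcases lt_or_ge j 18 with hj | hj
  · exact (h j hj).1
  · exact (h0 j hj).1.ge
  · exact (h j hj).2.1
  · exact (h0 j hj).2.ge
  · exact (h j hj).2.2
  · rw [(h0 j hj).1, (h0 j hj).2, zero_mul]

theorem env18_zero (b t s v w r z n e G ρ ν η τ q i N g : ℝ) {j : ℕ} (hj : 18 ≤ j) : env18 b t s v w r z n e G ρ ν η τ q i N g j = 0 := by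
  obtain ⟨k, rfl⟩ := Nat.exists_eq_add_of_le hj
  rw [add_comm]
  rfl

variable {n d k : ℕ}
variable {ι : Type*} [Fintype ι] [DecidableEq ι] {F : Finset ι} {Z Zp Zm : Matrix ι ι ℝ} {ε : ℝ}
  {forb : ι → ι → Prop}

theorem EmM (y1 y2 z1 z2 : ℤ) : Asm.Em (LL n) (XX n d k) 680 699 y1 y2 *
    Asm.Em (LL n) (XX n d k) 680 699 z1 z2 = Asm.Em (LL n) (XX n d k) 680 699 (y1 + z1) (y2 + z2) :=
  Asm.Em_mul _ _ _ _ _ _ _ _

theorem thC_le_Em (hσ : 2000 ≤ sR n) (hN0 : 0 < Nk n d k) :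
    thC n d k ≤ Asm.Em (LL n) (XX n d k) 680 699 1390 1428 ^ 2 := by
  refine (thC_le' hσ hN0).trans (le_of_eq ?_)
  rw [sR_pow_Em hσ (X := XX n d k) (show (680 : ℝ) < 699 by norm_num) 15, Nk_Em hN0, sq,
    EmM, EmM]
  norm_num

theorem sqrt_thC_le (hσ : 2000 ≤ sR n) (hN0 : 0 < Nk n d k) :
    √(thC n d k) ≤ Asm.Em (LL n) (XX n d k) 680 699 1390 1428 := by
  rw [← Real.sqrt_sq (Asm.Em_pos (LL n) (XX n d k) 680 699 1390 1428).le]
  exact Real.sqrt_le_sqrt (thC_le_Em hσ hN0)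

theorem sqrt_two_thC_le (h : 0 < thC n d k) : √(2 * thC n d k) ≤ 2 * √(thC n d k) := by
  rw [← Real.sqrt_sq (mul_nonneg (by norm_num : (0 : ℝ) ≤ 2) (Real.sqrt_nonneg (thC n d k)))]
  apply Real.sqrt_le_sqrt
  rw [mul_pow, Real.sq_sqrt h.le]; linarith

theorem sqrt_Nk_eq (hN0 : 0 < Nk n d k) :
    √(Nk n d k) = Asm.Em (LL n) (XX n d k) 680 699 1360 1398 := by
  rw [Nk_Em hN0, show Asm.Em (LL n) (XX n d k) 680 699 2720 2796 =
    Asm.Em (LL n) (XX n d k) 680 699 1360 1398 ^ 2 by rw [sq, EmM]; norm_num]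
  exact Real.sqrt_sq (Asm.Em_pos _ _ _ _ _ _).le

theorem one_le_EmC (R : Rg (LL n) (XX n d k) 680 699) {y1 y2 : ℤ} (h1 : 0 ≤ y1) (h2 : 0 ≤ y2) :
    (1 : ℝ) ≤ Asm.Em (LL n) (XX n d k) 680 699 y1 y2 := by
  rw [← Asm.Em_zero (LL n) (XX n d k) 680 699]
  exact Asm.Em_le R h1 h2

theorem one_add_sC (R : Rg (LL n) (XX n d k) 680 699) :
    1 + sC n d k ≤ 2 * Asm.Em (LL n) (XX n d k) 680 699 208 208 := by
  rw [sC_Em]
  have := one_le_EmC R (show (0 : ℤ) ≤ 208 by norm_num) (show (0 : ℤ) ≤ 208 by norm_num)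
  linarith

/-- the parameters of `Pr` in the phase IIIa -/
theorem prC (hσ : 2000 ≤ sR n) (hd : 3 ≤ d) (hk1 : k2 n d ≤ k) (hk : k < k3 n d)
    (hcard : (F.card : ℝ) = Nk n d k) {ε : ℝ} (hε : ε = 1 ∨ ε = -1) (h : OneC n d k ε F Z) :
    Pr F Z (bC n d k) (tC n d k) (sC n d k) (√(2 * thC n d k)) (√(thC n d k))
      (2 * Asm.Em (LL n) (XX n d k) 680 699 695 714) (1 + sC n d k) (√(Nk n d k)) where
  c := h.ctl' hσ hk1 hk
  r0 := mul_nonneg (by norm_num) (Asm.Em_pos _ _ _ _ _ _).le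
  hr := by
    have hs0 := sR_pos hσ
    have hN : 0 < Nk n d k := lt_of_le_of_lt (by positivity) (Nk_gt3 hk)
    have R := rg3 hσ hk1 hk
    have h3 := sqrt_thC_le (d := d) (k := k) hσ hN
    have h3' := sqrt_two_thC_le (thC_pos (d := d) (k := k) hσ hN)
    have h4 := one_le_EmC R (show (0 : ℤ) ≤ 1390 by norm_num) (show (0 : ℤ) ≤ 1428 by norm_num)
    have h5 : (2 * Asm.Em (LL n) (XX n d k) 680 699 695 714) ^ 2 =
        4 * Asm.Em (LL n) (XX n d k) 680 699 1390 1428 := by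
      rw [mul_pow, Asm.Em_pow]; norm_num
    rw [h5]
    linarith
  hz := le_rfl
  n0 := Real.sqrt_nonneg _
  hn := by
    have hs0 := sR_pos hσ
    have hN : 0 < Nk n d k := lt_of_le_of_lt (by positivity) (Nk_gt3 hk)
    rw [Real.sq_sqrt hN.le, hcard]
  ent := by
    obtain ⟨m0, m1, -⟩ := mu_facts hd
    have hs0 := sR_pos hσ
    have hs2 : (2000 : ℝ) ≤ sR n := sR_ge hσ
    have hN : (16 : ℝ) ≤ F.card := by
      rw [hcard]
      have h2 : (sR n : ℝ) ≤ (sR n : ℝ) ^ 680 := le_self_pow₀ (by linarith) (by norm_num)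
      have := (Nk_gt3 hk).le
      linarith
    exact h.sg.hent hε m0 (by have := mu_le hd; linarith) (by exact_mod_cast hN)

theorem mu_sq_le_half (hd : 3 ≤ d) : (√((d : ℝ) - 1))⁻¹ ^ 2 ≤ 1 / 2 := by
  have h2 := (mu_facts hd).2.2
  have h4 : (3 : ℝ) ≤ d := by exact_mod_cast hd
  nlinarith [sq_nonneg (√((d : ℝ) - 1))⁻¹]

/-- `Q₄ ≤ T₂/2 + Qe` -/
theorem Q4_half {ε s w i T N : ℝ} (hd : 3 ≤ d) (hg : Sg F Z (√((d : ℝ) - 1))⁻¹ ε)
    (hε : ε = 1 ∨ ε = -1) (hs0 : 0 ≤ s) (hw0 : 0 ≤ w) (hS : ∑ a ∈ F, Z a a ^ 2 ≤ s ^ 2)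
    (hW : ∑ a ∈ F, (Z ^ 2) a a ^ 2 ≤ w ^ 2) (hT0 : 0 ≤ (Z ^ 2).trace)
    (hT : (Z ^ 2).trace ≤ T) (hN : (F.card : ℝ) = N) (hN0 : 0 < N) (hi : i = 1 / N) :
    Q4 F Z ≤ (Z ^ 2).trace / 2 + (2 * (s * w) + s ^ 2 * w + s ^ 4 +
      2 * i * (3 * T + 2 * (s * w) + w ^ 2)) := by
  obtain ⟨m0, m1, -⟩ := mu_facts hd
  have hQ := hg.Q4_le_W hε m0 m1 hs0 hw0 hS hW
  have hm2 := mu_sq_le_half hd
  have e1 : Q4 F Z = Vale.Agent.P049.TS.Q4 F Z := rfl
  rw [e1]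
  refine hQ.trans ?_
  rw [hN]
  have hsw : 0 ≤ s * w := mul_nonneg hs0 hw0
  have a1 : (√((d : ℝ) - 1))⁻¹ ^ 2 * (Z ^ 2).trace ≤ 1 / 2 * (Z ^ 2).trace :=
    mul_le_mul_of_nonneg_right hm2 hT0
  have a2 : 2 * (√((d : ℝ) - 1))⁻¹ * (s * w) ≤ 2 * 1 * (s * w) :=
    mul_le_mul_of_nonneg_right (by linarith) hsw
  have a3 : 2 / N * (3 * (Z ^ 2).trace + 2 * (s * w) + w ^ 2) ≤
      2 / N * (3 * T + 2 * (s * w) + w ^ 2) :=
    mul_le_mul_of_nonneg_left (by linarith) (by positivity)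
  have a4 : 2 / N = 2 * i := by rw [hi]; ring
  rw [a4] at a3 ⊢
  linarith

theorem G_le {M : ℝ} (hM : 1 ≤ M) {s4 : ℝ} (h4 : s4 ≤ M) :
    1 + (d : ℝ) * (d + 1) + 128 * (4 * M) + 128 * s4 ≤ (26 + (d : ℝ) * (d + 1)) ^ 2 * M := by
  have hD : 0 ≤ (d : ℝ) * (d + 1) := by positivity
  nlinarith [mul_nonneg hD (by linarith : 0 ≤ M), mul_nonneg (mul_nonneg hD hD) (by linarith : 0 ≤ M)]

/-- the drift of `V₂` in the phase IIIa -/
theorem driftC (hσ : 2000 ≤ sR n) (hd : 3 ≤ d) (h : EnvC n d k F Zp Zm forb)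
    (hs : Sgn Zp Zm ε Z) :
    ∑ p ∈ adm F forb Zp Zm, (Vt 0 ((F.erase p.1).erase p.2) (upd Z p.1 p.2) - Vt 0 F Z) ≤
      -2 * (F.card : ℝ) * Vt 0 F Z + 4 * (((Z ^ 2).trace - F.card) * Vt 0 F Z) +
      8 * (Z ^ 2).trace + 15 / 4 * (Q4 F Z * (Vt 0 F Z - 2 * (Z ^ 2).trace + F.card)) +
      √(thC n d k) ^ 2 * (8 * ((5 * (d : ℝ) ^ 2 + 1) * (sR n : ℝ) ^ 384) +
        EV (bC n d k) (tC n d k) (sC n d k) (√(2 * thC n d k)) (√(thC n d k))
          (2 * Asm.Em (LL n) (XX n d k) 680 699 695 714) (1 + sC n d k) (√(Nk n d k)) (eC n d k)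
          ((26 + (d : ℝ) * (d + 1)) * Asm.Em (LL n) (XX n d k) 680 699 695 714) 2 1 2) := by
  have hd0 : (0 : ℝ) ≤ d := Nat.cast_nonneg d
  have o := h.oneC hs
  have hε : ε = 1 ∨ ε = -1 := by
    rcases hs with ⟨h, -⟩ | ⟨h, -⟩
    · exact Or.inl h
    · exact Or.inr h
  have hZ : Z = Zp ∨ Z = Zm := by
    rcases hs with ⟨-, h⟩ | ⟨-, h⟩
    · exact Or.inl h
    · exact Or.inr h
  have R := Asm.rg3 hσ h.k_ge h.k_lt
  have hN0 := h.Nk_pos hσ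
  have pp := prC hσ hd h.k_ge h.k_lt h.card (Or.inl rfl) h.p
  have pm := prC hσ hd h.k_ge h.k_lt h.card (Or.inr rfl) h.m
  obtain ⟨m0, m1, -⟩ := mu_facts hd
  have hth := thC_pos hσ hN0
  have hNth : Nk n d k ≤ thC n d k := by
    refine Nk_le_thC hσ ?_ (Nk_le2 h.k_ge)
    have hσ0 := sR_pos hσ
    have : (0 : ℝ) ≤ (sR n : ℝ) ^ 680 := by positivity
    have := Nk_gt3 h.k_lt
    linarith
  have Mpos : ∀ y1 y2, 0 < Asm.Em (LL n) (XX n d k) 680 699 y1 y2 :=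
    fun y1 y2 => Asm.Em_pos _ _ _ _ _ _
  have hT1 : ε * Z.trace ≤ 0 := by
    have h1 := o.T1_le
    have := rhoC_pos hσ hN0
    linarith
  have hτ : |Z.trace| ≤ (5 * (d : ℝ) ^ 2 + 1) * (sR n : ℝ) ^ 384 := by
    have h1 : |Z.trace| = |ε * Z.trace| := by
      rw [abs_mul]
      rcases hε with h | h <;> rw [h] <;> norm_num
    rw [h1, abs_of_nonpos hT1]
    have := o.T1_ge
    linarith
  have hG : 1 + (d : ℝ) * (d + 1) + 128 * (2 * Asm.Em (LL n) (XX n d k) 680 699 695 714) ^ 2 +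
      128 * sC n d k ^ 4 ≤
      ((26 + (d : ℝ) * (d + 1)) * Asm.Em (LL n) (XX n d k) 680 699 695 714) ^ 2 := by
    have e1 : Asm.Em (LL n) (XX n d k) 680 699 695 714 ^ 2 =
        Asm.Em (LL n) (XX n d k) 680 699 1390 1428 := by rw [sq, EmM]; norm_num
    have e2 : sC n d k ^ 4 ≤ Asm.Em (LL n) (XX n d k) 680 699 1390 1428 := by
      rw [sC_Em, Asm.Em_pow]
      exact Asm.Em_le R (by norm_num) (by norm_num)
    rw [mul_pow, mul_pow, e1]
    have := G_le (d := d) (one_le_EmC R (show (0 : ℤ) ≤ 1390 by norm_num)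
      (show (0 : ℤ) ≤ 1428 by norm_num)) e2
    linarith
  have h3 : sC n d k ^ 2 * ((1 + sC n d k) *
      (2 * Asm.Em (LL n) (XX n d k) 680 699 695 714) * √(thC n d k)) ≤
      2 ^ 2 * √(thC n d k) ^ 2 := by
    have a1 : sC n d k ^ 2 * ((1 + sC n d k) * (2 * Asm.Em (LL n) (XX n d k) 680 699 695 714)) ≤
        4 * √(thC n d k) := by
      have a2 : sC n d k ^ 2 * ((1 + sC n d k) *
          (2 * Asm.Em (LL n) (XX n d k) 680 699 695 714)) ≤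
          Asm.Em (LL n) (XX n d k) 680 699 208 208 ^ 2 *
          ((2 * Asm.Em (LL n) (XX n d k) 680 699 208 208) *
            (2 * Asm.Em (LL n) (XX n d k) 680 699 695 714)) := by
        have e := one_add_sC R
        have p0 := sC_nonneg n d k
        have p1 := (Mpos 695 714).le
        refine mul_le_mul (le_of_eq (by rw [sC_Em])) (mul_le_mul_of_nonneg_right e
          (mul_nonneg zero_le_two p1)) (by positivity) (sq_nonneg _)
      have a3 : Asm.Em (LL n) (XX n d k) 680 699 208 208 ^ 2 *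
          ((2 * Asm.Em (LL n) (XX n d k) 680 699 208 208) *
          (2 * Asm.Em (LL n) (XX n d k) 680 699 695 714)) =
          4 * Asm.Em (LL n) (XX n d k) 680 699 1319 1338 := by
        have : Asm.Em (LL n) (XX n d k) 680 699 208 208 ^ 2 *
          ((2 * Asm.Em (LL n) (XX n d k) 680 699 208 208) *
          (2 * Asm.Em (LL n) (XX n d k) 680 699 695 714)) =
            4 * (Asm.Em (LL n) (XX n d k) 680 699 208 208 *
              Asm.Em (LL n) (XX n d k) 680 699 208 208 *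
              Asm.Em (LL n) (XX n d k) 680 699 208 208 *
              Asm.Em (LL n) (XX n d k) 680 699 695 714) := by ring
        rw [this, EmM, EmM, EmM]; norm_num
      have a4 : Asm.Em (LL n) (XX n d k) 680 699 1319 1338 ≤ √(thC n d k) :=
        (Asm.Em_le R (by norm_num) (by norm_num)).trans
          ((sqrt_Nk_eq hN0).ge.trans (Real.sqrt_le_sqrt hNth))
      linarith
    have hw0 := Real.sqrt_nonneg (thC n d k)
    calc sC n d k ^ 2 * ((1 + sC n d k) *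
          (2 * Asm.Em (LL n) (XX n d k) 680 699 695 714) * √(thC n d k)) =
          (sC n d k ^ 2 * ((1 + sC n d k) *
          (2 * Asm.Em (LL n) (XX n d k) 680 699 695 714))) * √(thC n d k) := by ring
      _ ≤ 4 * √(thC n d k) * √(thC n d k) := mul_le_mul_of_nonneg_right a1 hw0
      _ = _ := by ring
  exact pp.V2_abs (forb := forb) pm ⟨h.tp.Δ0, h.tp.symm, h.tp.card⟩ hZ
    (mul_nonneg (by positivity) (Mpos _ _).le) hG
    (eC_nonneg _ _ _) (card_complC_le hσ h) zero_le_two zero_le_one zero_le_two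
    (sqrt_two_thC_le hth)
    (by rw [one_mul]; exact Real.sqrt_le_sqrt hNth) h3 o.sg hε m0 m1 hT1 hτ

end Vale.Agent.P049.TS.A480
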