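import Vale.Agent.P049.TS.Shell.Join4
import Vale.Agent.P049.TS.Avg.Adm

/-!
Pointwise expansion of the increment of a row norm `w_i = (Z²)_ii` under a join:
main part `mn` and bound of the remainder.
-/

set_option linter.unusedSectionVars false

namespace Vale.Agent.P049.TS.A480

open Matrix Finset

/-- half of the bound of the remainder -/
def bh (c x y sa ga sab β : ℝ) : ℝ :=
  4 * c * (|sa| * |y|) + 8 * c * |β| * (|sa| * |x|) +
    |ga| * (2.56 * β ^ 2 * x ^ 2 + 4.8 * |β| * (|x| * |y|) + 5 * c * y ^ 2) +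
    |sab| * (4.8 * |β| * x ^ 2 + 2.6 * (|x| * |y|))

theorem sq_part_le {x y β c B0 B1 : ℝ} (hc : 0 ≤ c) (hc4 : c ≤ 1 / 4) (h0 : |B0 - 1| ≤ 2 * c)
    (h1 : |B1| ≤ 8 / 5 * |β|) :
    |(B1 * x + B0 * y) ^ 2 - y ^ 2| ≤
      2.56 * β ^ 2 * x ^ 2 + 4.8 * |β| * (|x| * |y|) + 5 * c * y ^ 2 := by
  have hB0 : |B0| ≤ 3 / 2 := by
    have := abs_sub_abs_le_abs_sub B0 1
    rw [abs_one] at this; linarith
  have e : (B1 * x + B0 * y) ^ 2 - y ^ 2 =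
      B1 ^ 2 * x ^ 2 + 2 * (B1 * B0 * (x * y)) + (B0 - 1) * (B0 + 1) * y ^ 2 := by ring
  rw [e]
  refine (abs_add_three _ _ _).trans ?_
  have n1 := abs_nonneg B1
  have n2 := abs_nonneg β
  have n3 := abs_nonneg B0
  have t1 : |B1 ^ 2 * x ^ 2| ≤ 2.56 * β ^ 2 * x ^ 2 := by
    rw [abs_mul, abs_of_nonneg (sq_nonneg B1), abs_of_nonneg (sq_nonneg x), ← sq_abs B1,
      ← sq_abs β]
    refine mul_le_mul_of_nonneg_right ?_ (sq_nonneg x)
    nlinarith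
  have t2 : |2 * (B1 * B0 * (x * y))| ≤ 4.8 * |β| * (|x| * |y|) := by
    rw [abs_mul, abs_mul, abs_mul, abs_mul x y, abs_two]
    have : |B1| * |B0| ≤ 2.4 * |β| := by nlinarith
    have h2 : 0 ≤ |x| * |y| := by positivity
    nlinarith
  have t3 : |(B0 - 1) * (B0 + 1) * y ^ 2| ≤ 5 * c * y ^ 2 := by
    rw [abs_mul, abs_mul, abs_of_nonneg (sq_nonneg y)]
    refine mul_le_mul_of_nonneg_right ?_ (sq_nonneg y)
    have : |B0 + 1| ≤ 5 / 2 := by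
      refine (abs_add_le _ _).trans ?_
      rw [abs_one]; linarith
    have n4 := abs_nonneg (B0 + 1)
    have n5 := abs_nonneg (B0 - 1)
    nlinarith
  linarith

theorem prod_part_le {x y α β c B0 B1 B2 : ℝ} (hc4 : c ≤ 1 / 4)
    (h0 : |B0 - 1| ≤ 2 * c)
    (h1 : |B1| ≤ 8 / 5 * |β|) (h2 : |B2| ≤ 8 / 5 * |α|) (hab : |α * β| ≤ 1 / 8) :
    |(B1 * x + B0 * y) * (B0 * x + B2 * y)| ≤
      2.4 * |β| * x ^ 2 + 2.4 * |α| * y ^ 2 + 2.6 * (|x| * |y|) := by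
  have hB0 : |B0| ≤ 3 / 2 := by
    have := abs_sub_abs_le_abs_sub B0 1
    rw [abs_one] at this; linarith
  have e : (B1 * x + B0 * y) * (B0 * x + B2 * y) =
      B1 * B0 * x ^ 2 + B0 * B2 * y ^ 2 + (B1 * B2 + B0 ^ 2) * (x * y) := by ring
  rw [e]
  refine (abs_add_three _ _ _).trans ?_
  have n1 := abs_nonneg B1
  have n2 := abs_nonneg β
  have n3 := abs_nonneg B0
  have n4 := abs_nonneg B2
  have n5 := abs_nonneg α
  have t1 : |B1 * B0 * x ^ 2| ≤ 2.4 * |β| * x ^ 2 := by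
    rw [abs_mul, abs_mul, abs_of_nonneg (sq_nonneg x)]
    refine mul_le_mul_of_nonneg_right ?_ (sq_nonneg x)
    nlinarith
  have t2 : |B0 * B2 * y ^ 2| ≤ 2.4 * |α| * y ^ 2 := by
    rw [abs_mul, abs_mul, abs_of_nonneg (sq_nonneg y)]
    refine mul_le_mul_of_nonneg_right ?_ (sq_nonneg y)
    nlinarith
  have t3 : |(B1 * B2 + B0 ^ 2) * (x * y)| ≤ 2.6 * (|x| * |y|) := by
    rw [abs_mul, abs_mul x y]
    refine mul_le_mul_of_nonneg_right ?_ (by positivity)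
    refine (abs_add_le _ _).trans ?_
    rw [abs_mul, abs_of_nonneg (sq_nonneg B0), ← sq_abs B0]
    rw [abs_mul] at hab
    have m1 : |B1| * |B2| ≤ (8 / 5 * |β|) * (8 / 5 * |α|) := mul_le_mul h1 h2 n4 (by positivity)
    nlinarith
  linarith

theorem rem_bound {x y sa sb ga gb sab α β c B0 B1 B2 : ℝ} (hc : 0 ≤ c) (hc4 : c ≤ 1 / 4)
    (h0 : |B0 - 1| ≤ 2 * c) (h1 : |B1 - β| ≤ 4 * c * |β|) (h1' : |B1| ≤ 8 / 5 * |β|)
    (h2 : |B2 - α| ≤ 4 * c * |α|) (h2' : |B2| ≤ 8 / 5 * |α|) (hab : |α * β| ≤ 1 / 8) :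
    |(2 * ((B1 * x + B0 * y) * sa + (B0 * x + B2 * y) * sb) +
        ((B1 * x + B0 * y) ^ 2 * ga + 2 * ((B1 * x + B0 * y) * (B0 * x + B2 * y)) * sab +
          (B0 * x + B2 * y) ^ 2 * gb)) -
      (2 * (y * sa + x * sb) + 2 * (β * x * sa + α * y * sb) + (y ^ 2 * ga + x ^ 2 * gb))| ≤
    bh c x y sa ga sab β + bh c y x sb gb sab α := by
  have e : (2 * ((B1 * x + B0 * y) * sa + (B0 * x + B2 * y) * sb) +
        ((B1 * x + B0 * y) ^ 2 * ga + 2 * ((B1 * x + B0 * y) * (B0 * x + B2 * y)) * sab +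
          (B0 * x + B2 * y) ^ 2 * gb)) -
      (2 * (y * sa + x * sb) + 2 * (β * x * sa + α * y * sb) + (y ^ 2 * ga + x ^ 2 * gb)) =
      (2 * ((B1 - β) * (sa * x)) + 2 * ((B0 - 1) * (sa * y))) +
      (2 * ((B2 - α) * (sb * y)) + 2 * ((B0 - 1) * (sb * x))) +
      (ga * ((B1 * x + B0 * y) ^ 2 - y ^ 2) + gb * ((B2 * y + B0 * x) ^ 2 - x ^ 2)) +
      2 * (sab * ((B1 * x + B0 * y) * (B0 * x + B2 * y))) := by ring
  rw [e]
  have k1 := sq_part_le (x := x) (y := y) hc hc4 h0 h1'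
  have k2 := sq_part_le (x := y) (y := x) hc hc4 h0 h2'
  have k3 := prod_part_le (x := x) (y := y) hc4 h0 h1' h2' hab
  have m1 : |2 * ((B1 - β) * (sa * x))| ≤ 8 * c * |β| * (|sa| * |x|) := by
    rw [abs_mul, abs_mul, abs_mul sa, abs_two]
    have : 0 ≤ |sa| * |x| := by positivity
    nlinarith
  have m2 : |2 * ((B0 - 1) * (sa * y))| ≤ 4 * c * (|sa| * |y|) := by
    rw [abs_mul, abs_mul, abs_mul sa, abs_two]
    have : 0 ≤ |sa| * |y| := by positivity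
    nlinarith
  have m3 : |2 * ((B2 - α) * (sb * y))| ≤ 8 * c * |α| * (|sb| * |y|) := by
    rw [abs_mul, abs_mul, abs_mul sb, abs_two]
    have : 0 ≤ |sb| * |y| := by positivity
    nlinarith
  have m4 : |2 * ((B0 - 1) * (sb * x))| ≤ 4 * c * (|sb| * |x|) := by
    rw [abs_mul, abs_mul, abs_mul sb, abs_two]
    have : 0 ≤ |sb| * |x| := by positivity
    nlinarith
  have m5 : |ga * ((B1 * x + B0 * y) ^ 2 - y ^ 2)| ≤
      |ga| * (2.56 * β ^ 2 * x ^ 2 + 4.8 * |β| * (|x| * |y|) + 5 * c * y ^ 2) := by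
    rw [abs_mul]; exact mul_le_mul_of_nonneg_left k1 (abs_nonneg _)
  have m6 : |gb * ((B2 * y + B0 * x) ^ 2 - x ^ 2)| ≤
      |gb| * (2.56 * α ^ 2 * y ^ 2 + 4.8 * |α| * (|y| * |x|) + 5 * c * x ^ 2) := by
    rw [abs_mul]; exact mul_le_mul_of_nonneg_left k2 (abs_nonneg _)
  have m7 : |2 * (sab * ((B1 * x + B0 * y) * (B0 * x + B2 * y)))| ≤
      |sab| * (2 * (2.4 * |β| * x ^ 2 + 2.4 * |α| * y ^ 2 + 2.6 * (|x| * |y|))) := by
    rw [abs_mul, abs_mul, abs_two]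
    have := mul_le_mul_of_nonneg_left k3 (abs_nonneg sab)
    calc 2 * (|sab| * |(B1 * x + B0 * y) * (B0 * x + B2 * y)|)
        ≤ 2 * (|sab| * (2.4 * |β| * x ^ 2 + 2.4 * |α| * y ^ 2 + 2.6 * (|x| * |y|))) :=
          mul_le_mul_of_nonneg_left this (by norm_num)
      _ = _ := by ring
  have r1 := abs_add_le (2 * ((B1 - β) * (sa * x))) (2 * ((B0 - 1) * (sa * y)))
  have r2 := abs_add_le (2 * ((B2 - α) * (sb * y))) (2 * ((B0 - 1) * (sb * x)))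
  have r3 := abs_add_le (ga * ((B1 * x + B0 * y) ^ 2 - y ^ 2))
    (gb * ((B2 * y + B0 * x) ^ 2 - x ^ 2))
  refine (abs_add_le _ _).trans ?_
  refine (add_le_add (abs_add_three _ _ _) le_rfl).trans ?_
  unfold bh
  rw [mul_comm |y| |x|] at m6 ⊢
  linarith

variable {ι : Type*} [Fintype ι] [DecidableEq ι] {Z : Matrix ι ι ℝ} {a b : ι}

/-- `|Z_ab| + |Z_aa Z_bb|` -/
def cc (Z : Matrix ι ι ℝ) (a b : ι) : ℝ := |Z a b| + |Z a a * Z b b|

theorem cc_nonneg (Z : Matrix ι ι ℝ) (a b : ι) : 0 ≤ cc Z a b := by unfold cc; positivity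

theorem cc_le (h : PairOK Z a b) : cc Z a b ≤ 1 / 4 := by
  unfold cc; have := h.1; have := h.2; linarith

/-- main part of the increment of `w_i` -/
def mn (Z : Matrix ι ι ℝ) (a b i : ι) : ℝ :=
  2 * (Z b i * (Z ^ 2) a i + Z a i * (Z ^ 2) b i) +
    2 * (Z b b * Z a i * (Z ^ 2) a i + Z a a * Z b i * (Z ^ 2) b i) +
    (Z b i ^ 2 * ((Z ^ 2) a a - 1) + Z a i ^ 2 * ((Z ^ 2) b b - 1))

/-- bound of the remainder -/
def bt1 (Z : Matrix ι ι ℝ) (a b i : ι) : ℝ :=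
  bh (cc Z a b) (Z a i) (Z b i) ((Z ^ 2) a i) ((Z ^ 2) a a - 1) ((Z ^ 2) a b) (Z b b)

theorem cc_comm (hZ : Z.IsSymm) (a b : ι) : cc Z a b = cc Z b a := by
  unfold cc; rw [hZ.apply, mul_comm (Z a a)]

/-- pointwise expansion -/
theorem upd_w_le (hab : a ≠ b) (hZ : Z.IsSymm) (h : PairOK Z a b) (i : ι) (hia : i ≠ a)
    (hib : i ≠ b) :
    |(upd Z a b ^ 2) i i - (Z ^ 2) i i - mn Z a b i| ≤ bt1 Z a b i + bt1 Z b a i := by
  have hs : (Z ^ 2) b a = (Z ^ 2) a b := (symm_pow hZ 2).apply a b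
  have e1 : ca Z a b i = ((al Z a b)⁻¹ * Z b b) * Z a i + ((al Z a b)⁻¹ * (1 - Z a b)) * Z b i := by
    unfold ca; ring
  have e2 : cb Z a b i = ((al Z a b)⁻¹ * (1 - Z a b)) * Z a i + ((al Z a b)⁻¹ * Z a a) * Z b i := by
    unfold cb; ring
  rw [upd_sq_diag hab hZ h.al_ne i hia hib, e1, e2]
  set B0 := (al Z a b)⁻¹ * (1 - Z a b)
  set B1 := (al Z a b)⁻¹ * Z b b
  set B2 := (al Z a b)⁻¹ * Z a a
  have hc := cc_nonneg Z a b
  have hc4 := cc_le h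
  have h0 : |B0 - 1| ≤ 2 * cc Z a b := h.abs_off_sub_one
  have hi := h.abs_inv_sub_one
  have hinv : |(al Z a b)⁻¹| ≤ 8 / 5 := by
    rw [abs_of_pos (inv_pos.2 h.al_pos)]; exact h.inv_le
  have q1 : ∀ t : ℝ, |(al Z a b)⁻¹ * t - t| ≤ 4 * cc Z a b * |t| := by
    intro t
    have : (al Z a b)⁻¹ * t - t = ((al Z a b)⁻¹ - 1) * t := by ring
    rw [this, abs_mul]
    exact mul_le_mul_of_nonneg_right hi (abs_nonneg _)
  have q2 : ∀ t : ℝ, |(al Z a b)⁻¹ * t| ≤ 8 / 5 * |t| := by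
    intro t; rw [abs_mul]; exact mul_le_mul_of_nonneg_right hinv (abs_nonneg _)
  have key := rem_bound (x := Z a i) (y := Z b i) (sa := (Z ^ 2) a i) (sb := (Z ^ 2) b i)
    (ga := (Z ^ 2) a a - 1) (gb := (Z ^ 2) b b - 1) (sab := (Z ^ 2) a b) (α := Z a a) (β := Z b b)
    hc hc4 h0 (q1 (Z b b)) (q2 (Z b b)) (q1 (Z a a)) (q2 (Z a a)) h.2
  unfold bt1
  rw [← cc_comm hZ a b, hs]
  refine le_trans (le_of_eq ?_) key
  congr 1
  unfold mn
  ring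

end Vale.Agent.P049.TS.A480
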