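import Vale.Agent.P049.TS.Avg480.Cs
import Vale.Agent.P049.TS.Avg480.Pt
import Vale.Agent.P049.TS.Drift.T12d

/-!
Parameters for the drift of `V` and `S₁`, and the elementary row bounds.
-/

set_option linter.unusedSectionVars false

namespace Vale.Agent.P049.TS.A480

open Matrix Finset

variable {ι : Type*} [Fintype ι] [DecidableEq ι]

/-- the hypotheses on the current state: `Ctl` plus sup bounds.
`w_a ≤ r²`, `|Z_ab| ≤ z`, `#F ≤ n²`. -/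
structure Pr (F : Finset ι) (Z : Matrix ι ι ℝ) (b t s v w r z n : ℝ) : Prop where
  c : D12.Ctl F Z b t s v w
  r0 : 0 ≤ r
  hr : 1 + v ≤ r ^ 2
  hz : 1 + s ≤ z
  n0 : 0 ≤ n
  hn : (F.card : ℝ) ≤ n ^ 2
  ent : ∀ a c, Z a c ^ 2 ≤ (1 + |Z a a|) * (1 + |Z c c|)

variable {F : Finset ι} {Z : Matrix ι ι ℝ} {b t s v w r z n : ℝ}

namespace Pr

theorem z0 (h : Pr F Z b t s v w r z n) : 0 ≤ z := by have := h.hz; have := h.c.s0; linarith

theorem one_le_r2 (h : Pr F Z b t s v w r z n) : 1 ≤ r ^ 2 := by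
  have := h.hr; have := h.c.v0; linarith

theorem one_le_r (h : Pr F Z b t s v w r z n) : 1 ≤ r := by
  have := h.one_le_r2; have := h.r0; nlinarith

theorem supp_right (h : Pr F Z b t s v w r z n) (a : ι) {c : ι} (hc : c ∉ F) : Z a c = 0 := by
  rw [← h.c.symm.apply a c]; exact h.c.supp c hc a

theorem sum_univ (h : Pr F Z b t s v w r z n) (a : ι) (f : ι → ℝ) (hf : ∀ c, Z a c = 0 → f c = 0) :
    ∑ c, f c = ∑ c ∈ F, f c := by
  symm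
  exact Finset.sum_subset (Finset.subset_univ F) fun c _ hc => hf c (h.supp_right a hc)

theorem w_nonneg (h : Pr F Z b t s v w r z n) (a : ι) : 0 ≤ (Z ^ 2) a a :=
  Mat.sq_diag_nonneg h.c.symm a

/-- `∑_c Z_ac² = w_a` -/
theorem sum_sq (h : Pr F Z b t s v w r z n) (a : ι) : ∑ c ∈ F, Z a c ^ 2 = (Z ^ 2) a a := by
  rw [Mat.sq_diag_eq_sum h.c.symm, h.sum_univ a]
  intro c hc; rw [hc]; norm_num

theorem sum_sq' (h : Pr F Z b t s v w r z n) (a : ι) : ∑ c ∈ F, Z c a ^ 2 = (Z ^ 2) a a := by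
  rw [← h.sum_sq a]
  exact Finset.sum_congr rfl fun c _ => by rw [h.c.symm.apply]

theorem sum_sq_le (h : Pr F Z b t s v w r z n) (a : ι) :
    ∑ c ∈ F, Z a c ^ 2 ≤ (√((Z ^ 2) a a)) ^ 2 := by
  rw [Real.sq_sqrt (h.w_nonneg a), h.sum_sq]

theorem sum_sq_le' (h : Pr F Z b t s v w r z n) (a : ι) :
    ∑ c ∈ F, Z c a ^ 2 ≤ (√((Z ^ 2) a a)) ^ 2 := by
  rw [Real.sq_sqrt (h.w_nonneg a), h.sum_sq']

theorem w_le (h : Pr F Z b t s v w r z n) (a : ι) : (Z ^ 2) a a ≤ r ^ 2 := by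
  by_cases ha : a ∈ F
  · have h1 : ((Z ^ 2) a a - 1) ^ 2 ≤ v ^ 2 :=
      (Finset.single_le_sum (f := fun a => ((Z ^ 2) a a - 1) ^ 2) (fun _ _ => sq_nonneg _) ha).trans
        h.c.V
    have h2 := abs_le_of_sq_le_sq' h1 h.c.v0
    have := h.hr
    linarith [h2.2]
  · rw [(show D12.Supp F Z from h.c.supp).pow 1 a ha a]; positivity

theorem sqrt_w_le (h : Pr F Z b t s v w r z n) (a : ι) : √((Z ^ 2) a a) ≤ r :=
  D12.sqrt_le_of_sq (h.w_le a) h.r0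

theorem g_le (h : Pr F Z b t s v w r z n) (a : ι) : |(Z ^ 2) a a - 1| ≤ r ^ 2 := by
  have h1 := h.w_le a
  have h2 := h.w_nonneg a
  have h3 := h.one_le_r2
  rw [abs_le]; constructor <;> linarith

theorem sum_s_sq (h : Pr F Z b t s v w r z n) (a : ι) :
    ∑ c ∈ F, (Z ^ 2) a c ^ 2 ≤ (b * √((Z ^ 2) a a)) ^ 2 := by
  have h1 := h.c.opB.row_pow_le h.c.symm 1 1 a
  have h2 : ∑ c ∈ F, (Z ^ 2) a c ^ 2 ≤ ∑ c, (Z ^ 2) a c ^ 2 :=
    Finset.sum_le_sum_of_subset_of_nonneg (Finset.subset_univ F) fun _ _ _ => sq_nonneg _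
  rw [mul_pow, Real.sq_sqrt (h.w_nonneg a), Mat.sq_diag_eq_sum h.c.symm]
  norm_num at h1
  linarith

theorem sum_s_sq' (h : Pr F Z b t s v w r z n) (a : ι) :
    ∑ c ∈ F, (Z ^ 2) c a ^ 2 ≤ (b * √((Z ^ 2) a a)) ^ 2 := by
  refine le_trans (le_of_eq ?_) (h.sum_s_sq a)
  exact Finset.sum_congr rfl fun c _ => by rw [(Mat.IsSymm_pow h.c.symm 2).apply]

/-- `∑_{F×F} ((Z²)_ab)² ≤ b⁴` -/
theorem sum_s_sq2 (h : Pr F Z b t s v w r z n) :
    ∑ a ∈ F, ∑ c ∈ F, (Z ^ 2) a c ^ 2 ≤ (b ^ 2) ^ 2 := by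
  have h1 := h.c.T4
  rw [Mat.trace_four_eq_frob h.c.symm] at h1
  have e : (b ^ 2) ^ 2 = b ^ 4 := by ring
  rw [e]
  refine le_trans ?_ h1
  unfold Mat.frob
  refine (Finset.sum_le_sum fun a _ => ?_).trans
    (Finset.sum_le_sum_of_subset_of_nonneg (Finset.subset_univ F) fun a _ _ =>
      Finset.sum_nonneg fun _ _ => sq_nonneg _)
  exact Finset.sum_le_sum_of_subset_of_nonneg (Finset.subset_univ F) fun _ _ _ => sq_nonneg _

/-- `∑_{F×F} Z_ab² ≤ t²` -/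
theorem sum_Z_sq2 (h : Pr F Z b t s v w r z n) : ∑ a ∈ F, ∑ c ∈ F, Z a c ^ 2 ≤ t ^ 2 := by
  have h1 := h.c.T2
  have e : (Z ^ 2).trace = ∑ a, (Z ^ 2) a a := rfl
  rw [e] at h1
  refine le_trans ?_ h1
  simp only [h.sum_sq]
  exact Finset.sum_le_sum_of_subset_of_nonneg (Finset.subset_univ F) fun a _ _ => h.w_nonneg a

theorem s_sq_le (h : Pr F Z b t s v w r z n) (a c : ι) :
    (Z ^ 2) a c ^ 2 ≤ (Z ^ 2) a a * (Z ^ 2) c c := by
  have h1 := h.c.opB.pow_apply_le h.c.symm h.c.b0 0 a c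
  norm_num at h1
  have h2 := pow_le_pow_left₀ (abs_nonneg _) h1 2
  rw [sq_abs, mul_pow, Real.sq_sqrt (h.w_nonneg a), Real.sq_sqrt (h.w_nonneg c)] at h2
  exact h2

theorem diag_le (h : Pr F Z b t s v w r z n) (a : ι) : |Z a a| ≤ s := by
  by_cases ha : a ∈ F
  · have h1 : Z a a ^ 2 ≤ s ^ 2 :=
      (Finset.single_le_sum (f := fun a => Z a a ^ 2) (fun _ _ => sq_nonneg _) ha).trans h.c.S
    exact abs_le_of_sq_le_sq h1 h.c.s0
  · rw [h.c.supp a ha a, abs_zero]; exact h.c.s0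

theorem ent_le (h : Pr F Z b t s v w r z n) (a c : ι) : |Z a c| ≤ z := by
  refine abs_le_of_sq_le_sq ?_ h.z0
  have h1 := h.ent a c
  have h2 := h.diag_le a
  have h3 := h.diag_le c
  have h4 := h.hz
  have h5 := h.c.s0
  have n1 := abs_nonneg (Z a a)
  have n2 := abs_nonneg (Z c c)
  calc Z a c ^ 2 ≤ (1 + |Z a a|) * (1 + |Z c c|) := h1
    _ ≤ z * z := mul_le_mul (by linarith) (by linarith) (by linarith) h.z0
    _ = z ^ 2 := by ring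

theorem ent_sq_le (h : Pr F Z b t s v w r z n) (a c : ι) : Z a c ^ 2 ≤ z ^ 2 := by
  rw [← sq_abs]; exact pow_le_pow_left₀ (abs_nonneg _) (h.ent_le a c) 2

/-- `Σ |φ| w ≤ f w` -/
theorem sum_phi_w (h : Pr F Z b t s v w r z n) {φ : ι → ℝ} {f : ℝ} (hf0 : 0 ≤ f)
    (hf : ∑ i ∈ F, φ i ^ 2 ≤ f ^ 2) : ∑ i ∈ F, |φ i| * (Z ^ 2) i i ≤ f * w := by
  have := cs1 hf h.c.W hf0 h.c.w0
  refine le_trans (le_of_eq ?_) this
  exact Finset.sum_congr rfl fun i _ => by rw [abs_of_nonneg (h.w_nonneg i)]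

/-- `∑_b |Z_ab| |β_b| ≤ r s` -/
theorem row_diag (h : Pr F Z b t s v w r z n) (a : ι) : ∑ c ∈ F, |Z a c| * |Z c c| ≤ r * s := by
  refine (cs1 (h.sum_sq_le a) h.c.S (Real.sqrt_nonneg _) h.c.s0).trans ?_
  exact mul_le_mul_of_nonneg_right (h.sqrt_w_le a) h.c.s0

theorem row_g (h : Pr F Z b t s v w r z n) (a : ι) :
    ∑ c ∈ F, |Z c a| * |(Z ^ 2) c c - 1| ≤ r * v := by
  refine (cs1 (h.sum_sq_le' a) h.c.V (Real.sqrt_nonneg _) h.c.v0).trans ?_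
  exact mul_le_mul_of_nonneg_right (h.sqrt_w_le a) h.c.v0

theorem row_s_diag (h : Pr F Z b t s v w r z n) (a : ι) :
    ∑ c ∈ F, |(Z ^ 2) a c| * |Z c c| ≤ b * r * s := by
  refine (cs1 (h.sum_s_sq a) h.c.S (mul_nonneg h.c.b0 (Real.sqrt_nonneg _)) h.c.s0).trans ?_
  exact mul_le_mul_of_nonneg_right (mul_le_mul_of_nonneg_left (h.sqrt_w_le a) h.c.b0) h.c.s0

theorem row_one (h : Pr F Z b t s v w r z n) (a : ι) : ∑ c ∈ F, |Z a c| ≤ n * r := by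
  refine (cs1_one (h.sum_sq_le a) h.hn (Real.sqrt_nonneg _) h.n0).trans ?_
  exact mul_le_mul_of_nonneg_left (h.sqrt_w_le a) h.n0

theorem row_s_one (h : Pr F Z b t s v w r z n) (a : ι) : ∑ c ∈ F, |(Z ^ 2) a c| ≤ n * (b * r) := by
  refine (cs1_one (h.sum_s_sq a) h.hn (mul_nonneg h.c.b0 (Real.sqrt_nonneg _)) h.n0).trans ?_
  exact mul_le_mul_of_nonneg_left (mul_le_mul_of_nonneg_left (h.sqrt_w_le a) h.c.b0) h.n0

theorem diag_one (h : Pr F Z b t s v w r z n) : ∑ c ∈ F, |Z c c| ≤ n * s :=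
  cs1_one h.c.S h.hn h.c.s0 h.n0

theorem g_one (h : Pr F Z b t s v w r z n) : ∑ c ∈ F, |(Z ^ 2) c c - 1| ≤ n * v :=
  cs1_one h.c.V h.hn h.c.v0 h.n0

theorem diag_g (h : Pr F Z b t s v w r z n) : ∑ c ∈ F, |Z c c| * |(Z ^ 2) c c - 1| ≤ s * v :=
  cs1 h.c.S h.c.V h.c.s0 h.c.v0

end Pr

end Vale.Agent.P049.TS.A480
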