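import Mathlib

/-!
Cauchy-Schwarz on a finite set (squares bounded by squares of parameters).
-/

namespace Vale.Agent.P049.TS.A480

open Finset

variable {α : Type*} {F : Finset α}

theorem cs1 {u v : α → ℝ} {U V : ℝ} (hU : ∑ a ∈ F, u a ^ 2 ≤ U ^ 2) (hV : ∑ a ∈ F, v a ^ 2 ≤ V ^ 2)
    (hU0 : 0 ≤ U) (hV0 : 0 ≤ V) : ∑ a ∈ F, |u a| * |v a| ≤ U * V := by
  refine abs_le_of_sq_le_sq' ?_ (mul_nonneg hU0 hV0) |>.2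
  refine (Finset.sum_mul_sq_le_sq_mul_sq F _ _).trans ?_
  simp only [sq_abs, mul_pow]
  exact mul_le_mul hU hV (Finset.sum_nonneg fun _ _ => sq_nonneg _) (sq_nonneg _)

theorem cs1_one {u : α → ℝ} {U n : ℝ} (hU : ∑ a ∈ F, u a ^ 2 ≤ U ^ 2) (hn : (F.card : ℝ) ≤ n ^ 2)
    (hU0 : 0 ≤ U) (hn0 : 0 ≤ n) : ∑ a ∈ F, |u a| ≤ n * U := by
  have := cs1 (F := F) (u := fun _ => (1 : ℝ)) (v := u) (U := n) (V := U) (by simpa using hn) hU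
    hn0 hU0
  simpa using this

theorem cs2 {β : Type*} {G : Finset β} {M : α → β → ℝ} {u : α → ℝ} {v : β → ℝ} {K U V : ℝ}
    (hM : ∑ a ∈ F, ∑ b ∈ G, M a b ^ 2 ≤ K ^ 2)
    (hU : ∑ a ∈ F, u a ^ 2 ≤ U ^ 2) (hV : ∑ b ∈ G, v b ^ 2 ≤ V ^ 2)
    (hK0 : 0 ≤ K) (hU0 : 0 ≤ U) (hV0 : 0 ≤ V) :
    ∑ a ∈ F, ∑ b ∈ G, |M a b| * (|u a| * |v b|) ≤ K * (U * V) := by
  rw [← Finset.sum_product' (f := fun a b => |M a b| * (|u a| * |v b|))]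
  have h1 : ∑ p ∈ F ×ˢ G, (M p.1 p.2) ^ 2 ≤ K ^ 2 := by
    rwa [Finset.sum_product' (f := fun a b => M a b ^ 2)]
  have h2 : ∑ p ∈ F ×ˢ G, (u p.1 * v p.2) ^ 2 ≤ (U * V) ^ 2 := by
    rw [Finset.sum_product' (f := fun a b => (u a * v b) ^ 2)]
    simp only [mul_pow]
    rw [← Finset.sum_mul_sum]
    exact mul_le_mul hU hV (Finset.sum_nonneg fun _ _ => sq_nonneg _) (sq_nonneg _)
  have h3 := cs1 h1 h2 hK0 (mul_nonneg hU0 hV0)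
  simpa only [abs_mul] using h3

theorem sum_le_mul {u c : α → ℝ} {C : ℝ} (hu : ∀ a ∈ F, 0 ≤ u a) (hc : ∀ a ∈ F, c a ≤ C) :
    ∑ a ∈ F, u a * c a ≤ C * ∑ a ∈ F, u a := by
  rw [Finset.mul_sum]
  exact Finset.sum_le_sum fun a ha => by
    rw [mul_comm]; exact mul_le_mul_of_nonneg_right (hc a ha) (hu a ha)

theorem sum_sq_le_of {u : α → ℝ} {v : α → ℝ} (h : ∀ a ∈ F, |u a| ≤ |v a|) :
    ∑ a ∈ F, u a ^ 2 ≤ ∑ a ∈ F, v a ^ 2 :=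
  Finset.sum_le_sum fun a ha => sq_le_sq.2 (h a ha)

end Vale.Agent.P049.TS.A480
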