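import Vale.Agent.P049.TS.Avg480.FO

/-!
Evaluation of the main part of the first-order sums.
-/

set_option linter.unusedSectionVars false

namespace Vale.Agent.P049.TS.A480

open Matrix Finset

variable {ι : Type*} [Fintype ι] [DecidableEq ι]
variable {F : Finset ι} {Z : Matrix ι ι ℝ} {b t s v w r z n : ℝ}

/-- `ρ_ac = (Z² diag(φ) Z)_ac` -/
def rho (F : Finset ι) (Z : Matrix ι ι ℝ) (φ : ι → ℝ) (a c : ι) : ℝ :=
  ∑ i ∈ F, φ i * ((Z ^ 2) a i * Z c i)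

/-- `κ_a = (Z diag(φ) Z)_aa` -/
def kap (F : Finset ι) (Z : Matrix ι ι ℝ) (φ : ι → ℝ) (a : ι) : ℝ :=
  ∑ i ∈ F, φ i * Z a i ^ 2

theorem fm_eq (F : Finset ι) (Z : Matrix ι ι ℝ) (φ : ι → ℝ) (a c : ι) :
    fm F Z φ a c = 2 * (rho F Z φ a c + rho F Z φ c a) +
      2 * (Z c c * rho F Z φ a a + Z a a * rho F Z φ c c) +
      (((Z ^ 2) a a - 1) * kap F Z φ c + ((Z ^ 2) c c - 1) * kap F Z φ a) := by
  unfold fm rho kap mn
  simp only [Finset.mul_sum, ← Finset.sum_add_distrib]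
  exact Finset.sum_congr rfl fun i _ => by ring

theorem Pr.sum_one (h : Pr F Z b t s v w r z n) {i : ι} (hi : i ∈ F) (k : ℕ) :
    ∑ a ∈ F, (Z ^ k) a i = 1 := by
  have h1 := congrFun (D12.pow_mulVec_oneF (F := F) h.c.supp h.c.symm h.c.row k) i
  simp only [Matrix.mulVec, dotProduct, D12.oneF, mul_ite, mul_one, mul_zero, hi, if_true,
    Finset.sum_ite_mem, Finset.univ_inter] at h1
  rw [← h1]
  exact Finset.sum_congr rfl fun a _ => (Mat.IsSymm_pow h.c.symm k).apply i a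

theorem Pr.sum_cube (h : Pr F Z b t s v w r z n) (i : ι) :
    ∑ a ∈ F, (Z ^ 2) a i * Z a i = (Z ^ 3) i i := by
  rw [show Z ^ 3 = Z ^ 2 * Z from pow_succ Z 2, Matrix.mul_apply, h.sum_univ i]
  · exact Finset.sum_congr rfl fun a _ => by
      rw [(Mat.IsSymm_pow h.c.symm 2).apply i a]
  · intro c hc
    rw [h.c.symm.apply i c, hc, mul_zero]

theorem Pr.sum_diag (h : Pr F Z b t s v w r z n) : ∑ a ∈ F, Z a a = Z.trace :=
  D12.sum_diag_F h.c.supp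

theorem Pr.sum_g (h : Pr F Z b t s v w r z n) :
    ∑ a ∈ F, ((Z ^ 2) a a - 1) = (Z ^ 2).trace - F.card := by
  rw [Finset.sum_sub_distrib, D12.sum_diag_F ((show D12.Supp F Z from h.c.supp).pow 1)]
  simp

theorem Pr.fm_full (h : Pr F Z b t s v w r z n) (φ : ι → ℝ) :
    ∑ a ∈ F, ∑ c ∈ F, fm F Z φ a c = 4 * ∑ i ∈ F, φ i + 4 * (Z.trace * ∑ i ∈ F, φ i * (Z ^ 3) i i) +
      2 * (((Z ^ 2).trace - F.card) * ∑ i ∈ F, φ i * (Z ^ 2) i i) := by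
  have hr : ∑ a ∈ F, ∑ c ∈ F, rho F Z φ a c = ∑ i ∈ F, φ i := by
    unfold rho
    have : ∑ a ∈ F, ∑ c ∈ F, ∑ i ∈ F, φ i * ((Z ^ 2) a i * Z c i) =
        ∑ i ∈ F, φ i * ((∑ a ∈ F, (Z ^ 2) a i) * ∑ c ∈ F, Z c i) := by
      rw [Finset.sum_congr rfl fun c _ => Finset.sum_comm, Finset.sum_comm]
      refine Finset.sum_congr rfl fun i _ => ?_
      rw [Finset.sum_mul_sum, Finset.mul_sum]
      exact Finset.sum_congr rfl fun a _ => by rw [Finset.mul_sum]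
    rw [this]
    refine Finset.sum_congr rfl fun i hi => ?_
    have h1 := h.sum_one hi 2
    have h2 := h.sum_one hi 1
    simp only [pow_one] at h2
    rw [h1, h2]; ring
  have hd : ∑ a ∈ F, rho F Z φ a a = ∑ i ∈ F, φ i * (Z ^ 3) i i := by
    unfold rho
    rw [Finset.sum_comm]
    refine Finset.sum_congr rfl fun i _ => ?_
    rw [← Finset.mul_sum, h.sum_cube]
  have hk : ∑ a ∈ F, kap F Z φ a = ∑ i ∈ F, φ i * (Z ^ 2) i i := by
    unfold kap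
    rw [Finset.sum_comm]
    refine Finset.sum_congr rfl fun i _ => ?_
    rw [← Finset.mul_sum, h.sum_sq']
  have hr' : ∑ a ∈ F, ∑ c ∈ F, rho F Z φ c a = ∑ i ∈ F, φ i := by
    rw [Finset.sum_comm]; exact hr
  have e1 : ∑ a ∈ F, ∑ c ∈ F, Z c c * rho F Z φ a a =
      Z.trace * ∑ i ∈ F, φ i * (Z ^ 3) i i := by
    rw [← hd, ← h.sum_diag, Finset.sum_mul_sum, Finset.sum_comm]
  have e2 : ∑ a ∈ F, ∑ c ∈ F, Z a a * rho F Z φ c c =
      Z.trace * ∑ i ∈ F, φ i * (Z ^ 3) i i := by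
    rw [← hd, ← h.sum_diag, Finset.sum_mul_sum]
  have e3 : ∑ a ∈ F, ∑ c ∈ F, ((Z ^ 2) a a - 1) * kap F Z φ c =
      ((Z ^ 2).trace - F.card) * ∑ i ∈ F, φ i * (Z ^ 2) i i := by
    rw [← hk, ← h.sum_g, Finset.sum_mul_sum]
  have e4 : ∑ a ∈ F, ∑ c ∈ F, ((Z ^ 2) c c - 1) * kap F Z φ a =
      ((Z ^ 2).trace - F.card) * ∑ i ∈ F, φ i * (Z ^ 2) i i := by
    rw [← hk, ← h.sum_g, Finset.sum_mul_sum, Finset.sum_comm]
  simp only [fm_eq, mul_add, Finset.sum_add_distrib, ← Finset.mul_sum]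
  simp only [← Finset.mul_sum] at hr hr' e1 e2 e3 e4
  rw [hr, hr', e1, e2, e3, e4]
  ring

theorem sum_swap {k : ι → ι → ℝ} (hk : ∀ a c, k a c = k c a) (f : ι → ι → ℝ) :
    ∑ a ∈ F, ∑ c ∈ F, k a c * f c a = ∑ a ∈ F, ∑ c ∈ F, k a c * f a c := by
  rw [Finset.sum_comm]
  exact Finset.sum_congr rfl fun a _ => Finset.sum_congr rfl fun c _ => by rw [hk]

theorem Pr.sum_abs_rho_diag (h : Pr F Z b t s v w r z n) {φ : ι → ℝ} {f : ℝ} (hf0 : 0 ≤ f)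
    (hf : ∑ i ∈ F, φ i ^ 2 ≤ f ^ 2) : ∑ a ∈ F, |rho F Z φ a a| ≤ b * (f * w) := by
  have h1 : ∑ a ∈ F, |rho F Z φ a a| ≤ ∑ a ∈ F, ∑ i ∈ F, |φ i| * (|(Z ^ 2) a i| * |Z a i|) := by
    refine Finset.sum_le_sum fun a _ => ?_
    unfold rho
    refine (Finset.abs_sum_le_sum_abs _ _).trans (le_of_eq ?_)
    exact Finset.sum_congr rfl fun i _ => by rw [abs_mul, abs_mul]
  refine h1.trans ?_
  rw [Finset.sum_comm]
  refine le_trans (Finset.sum_le_sum fun i _ => ?_)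
    (le_trans (le_of_eq (Finset.mul_sum F (fun i => |φ i| * (Z ^ 2) i i) b).symm)
      (mul_le_mul_of_nonneg_left (h.sum_phi_w hf0 hf) h.c.b0))
  rw [← Finset.mul_sum]
  have := cs1 (h.sum_s_sq' i) (h.sum_sq_le' i) (mul_nonneg h.c.b0 (Real.sqrt_nonneg _))
    (Real.sqrt_nonneg _)
  rw [mul_assoc, Real.mul_self_sqrt (h.w_nonneg i)] at this
  calc _ ≤ |φ i| * (b * (Z ^ 2) i i) := mul_le_mul_of_nonneg_left this (abs_nonneg _)
    _ = _ := by ring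

theorem Pr.sum_abs_kap (h : Pr F Z b t s v w r z n) {φ : ι → ℝ} {f : ℝ} (hf0 : 0 ≤ f)
    (hf : ∑ i ∈ F, φ i ^ 2 ≤ f ^ 2) : ∑ a ∈ F, |kap F Z φ a| ≤ f * w := by
  have h1 : ∑ a ∈ F, |kap F Z φ a| ≤ ∑ a ∈ F, ∑ i ∈ F, |φ i| * Z a i ^ 2 := by
    refine Finset.sum_le_sum fun a _ => ?_
    unfold kap
    refine (Finset.abs_sum_le_sum_abs _ _).trans (le_of_eq ?_)
    exact Finset.sum_congr rfl fun i _ => by rw [abs_mul, abs_of_nonneg (sq_nonneg (Z a i))]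
  refine h1.trans ?_
  rw [Finset.sum_comm]
  refine le_trans (le_of_eq ?_) (h.sum_phi_w hf0 hf)
  refine Finset.sum_congr rfl fun i _ => ?_
  rw [← Finset.mul_sum, h.sum_sq']

variable {om : ι → ι → ℝ} {G : ℝ}

/-- sums of `k_ac u_c v_a` for rows of `k` bounded by `G` -/
theorem sum_row_le {k : ι → ι → ℝ} {u v' : ι → ℝ} {U V' : ℝ} (hG : 0 ≤ G)
    (hk : ∀ a ∈ F, ∑ c ∈ F, k a c ^ 2 ≤ G ^ 2) (hU0 : 0 ≤ U) (hU : ∑ c ∈ F, u c ^ 2 ≤ U ^ 2)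
    (hV : ∑ a ∈ F, |v' a| ≤ V') :
    |∑ a ∈ F, ∑ c ∈ F, k a c * (u c * v' a)| ≤ G * U * V' := by
  refine (Finset.abs_sum_le_sum_abs _ _).trans ?_
  have h1 : ∀ a ∈ F, |∑ c ∈ F, k a c * (u c * v' a)| ≤ |v' a| * (G * U) := by
    intro a ha
    refine (Finset.abs_sum_le_sum_abs _ _).trans ?_
    have e : ∀ c ∈ F, |k a c * (u c * v' a)| = |v' a| * (|k a c| * |u c|) := by
      intro c _; rw [abs_mul, abs_mul]; ring
    rw [Finset.sum_congr rfl e, ← Finset.mul_sum]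
    exact mul_le_mul_of_nonneg_left (cs1 (hk a ha) hU hG hU0) (abs_nonneg _)
  refine (Finset.sum_le_sum h1).trans ?_
  rw [← Finset.sum_mul, mul_comm]
  exact mul_le_mul_of_nonneg_left hV (mul_nonneg hG hU0)

theorem Pr.fm_k (h : Pr F Z b t s v w r z n) (hw : Wt F Z om G) {φ : ι → ℝ} {f : ℝ}
    (hf0 : 0 ≤ f) (hf : ∑ i ∈ F, φ i ^ 2 ≤ f ^ 2) :
    |∑ a ∈ F, ∑ c ∈ F, (1 - om a c) * fm F Z φ a c -
      4 * ∑ a ∈ F, ∑ c ∈ F, (1 - om a c) * rho F Z φ a c| ≤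
      f * (4 * (G * s * (b * w)) + 2 * (G * v * w)) := by
  set k : ι → ι → ℝ := fun a c => 1 - om a c with hk
  have hks : ∀ a c, k a c = k c a := fun a c => by simp only [hk]; rw [hw.symm]
  have b1 := sum_row_le (k := k) (u := fun c => Z c c) (v' := fun a => rho F Z φ a a) hw.G0 hw.row
    h.c.s0 h.c.S (h.sum_abs_rho_diag hf0 hf)
  have b2 := sum_row_le (k := k) (u := fun c => (Z ^ 2) c c - 1) (v' := fun a => kap F Z φ a) hw.G0
    hw.row h.c.v0 h.c.V (h.sum_abs_kap hf0 hf)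
  have s1 := sum_swap (F := F) hks (fun a c => rho F Z φ a c)
  have s2 := sum_swap (F := F) hks (fun a c => Z c c * rho F Z φ a a)
  have s3 := sum_swap (F := F) hks (fun a c => ((Z ^ 2) c c - 1) * kap F Z φ a)
  have e : ∑ a ∈ F, ∑ c ∈ F, k a c * fm F Z φ a c - 4 * ∑ a ∈ F, ∑ c ∈ F, k a c * rho F Z φ a c =
      4 * ∑ a ∈ F, ∑ c ∈ F, k a c * (Z c c * rho F Z φ a a) +
      2 * ∑ a ∈ F, ∑ c ∈ F, k a c * (((Z ^ 2) c c - 1) * kap F Z φ a) := by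
    have e0 : ∀ a c, k a c * fm F Z φ a c = 2 * (k a c * rho F Z φ a c) +
        2 * (k a c * rho F Z φ c a) + 2 * (k a c * (Z c c * rho F Z φ a a)) +
        2 * (k a c * (Z a a * rho F Z φ c c)) + k a c * (((Z ^ 2) a a - 1) * kap F Z φ c) +
        k a c * (((Z ^ 2) c c - 1) * kap F Z φ a) := by
      intro a c; rw [fm_eq]; ring
    simp only [e0, Finset.sum_add_distrib, ← Finset.mul_sum]
    rw [s1, s2, s3]
    ring
  rw [e]
  refine (abs_add_le _ _).trans ?_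
  rw [abs_mul, abs_mul]
  norm_num
  nlinarith [b1, b2]

/-- **General first-order lemma** -/
theorem Pr.FO (h : Pr F Z b t s v w r z n) (hw : Wt F Z om G) {φ : ι → ℝ} {f : ℝ}
    (hf0 : 0 ≤ f) (hf : ∑ i ∈ F, φ i ^ 2 ≤ f ^ 2) :
    |∑ a ∈ F, ∑ c ∈ F, om a c * fo F Z φ a c -
      (4 * ∑ i ∈ F, φ i + 4 * (Z.trace * ∑ i ∈ F, φ i * (Z ^ 3) i i) +
        2 * (((Z ^ 2).trace - F.card) * ∑ i ∈ F, φ i * (Z ^ 2) i i)) +
      4 * ∑ a ∈ F, ∑ c ∈ F, (1 - om a c) * rho F Z φ a c| ≤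
      f * (4 * (G * s * (b * w)) + 2 * (G * v * w) +
        3 * (KB b t s v r * w + n * K2 b s v w r)) := by
  have h1 := h.fo_sum hw hf0 hf
  have h2 := h.fm_k hw hf0 hf
  have h3 := h.fm_full φ
  have e : ∑ a ∈ F, ∑ c ∈ F, (1 - om a c) * fm F Z φ a c =
      ∑ a ∈ F, ∑ c ∈ F, fm F Z φ a c - ∑ a ∈ F, ∑ c ∈ F, om a c * fm F Z φ a c := by
    simp only [sub_mul, one_mul, Finset.sum_sub_distrib]
  rw [e, h3] at h2
  rw [abs_le] at h1 h2 ⊢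
  constructor <;> nlinarith [h1.1, h1.2, h2.1, h2.2]

end Vale.Agent.P049.TS.A480
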