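import Vale.Agent.P049.TS.Avg480.Base

/-!
First-order sums `∑_{a,b} om_ab ∑_{i ∉ {a,b}} φ_i (w_i' - w_i)` for an arbitrary multiplier `φ`.
-/

set_option linter.unusedSectionVars false

namespace Vale.Agent.P049.TS.A480

open Matrix Finset

variable {ι : Type*} [Fintype ι] [DecidableEq ι]
variable {F : Finset ι} {Z : Matrix ι ι ℝ} {b t s v w r z n : ℝ}

/-- constant of the remainder -/
def KB (b t s v r : ℝ) : ℝ :=
  4 * ((t + s ^ 2) * b) + 8 * ((r * s + s ^ 3) * b) + 2.56 * (s ^ 2 * r ^ 2) + 4.8 * (v * s) +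
    5 * ((r + s ^ 2) * v) + 4.8 * (b * r * s) + 2.6 * b ^ 2

theorem bt1_eq (a c i : ι) : bt1 Z a c i =
    4 * (|Z a c| * (|(Z ^ 2) a i| * |Z c i|)) +
    4 * ((|Z a a| * |(Z ^ 2) a i|) * (|Z c c| * |Z c i|)) +
    8 * ((|(Z ^ 2) a i| * |Z a i|) * (|Z a c| * |Z c c|)) +
    8 * ((|Z a a| * (|(Z ^ 2) a i| * |Z a i|)) * (Z c c ^ 2)) +
    2.56 * ((|(Z ^ 2) a a - 1| * Z a i ^ 2) * Z c c ^ 2) +
    4.8 * ((|(Z ^ 2) a a - 1| * |Z a i|) * (|Z c c| * |Z c i|)) +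
    5 * (Z c i ^ 2 * (|Z a c| * |(Z ^ 2) a a - 1|)) +
    5 * ((|Z a a| * |(Z ^ 2) a a - 1|) * (|Z c c| * Z c i ^ 2)) +
    4.8 * (Z a i ^ 2 * (|(Z ^ 2) a c| * |Z c c|)) +
    2.6 * (|(Z ^ 2) a c| * (|Z a i| * |Z c i|)) := by
  have e : |Z c c| * |Z c c| = Z c c ^ 2 := by rw [← sq, sq_abs]
  unfold bt1 bh cc
  rw [abs_mul (Z a a)]
  linear_combination (8 * (|Z a a| * (|(Z ^ 2) a i| * |Z a i|))) * e

theorem Pr.sum_bt1 (h : Pr F Z b t s v w r z n) (i : ι) :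
    ∑ a ∈ F, ∑ c ∈ F, bt1 Z a c i ≤ KB b t s v r * (Z ^ 2) i i := by
  have hb := h.c.b0
  have ht := h.c.t0
  have hs := h.c.s0
  have hv := h.c.v0
  have hr := h.r0
  set W := √((Z ^ 2) i i) with hW
  have hW0 : 0 ≤ W := Real.sqrt_nonneg _
  have hWW : W * W = (Z ^ 2) i i := Real.mul_self_sqrt (h.w_nonneg i)
  have hx := h.sum_sq_le' i
  have hsx := h.sum_s_sq' i
  rw [← hW] at hx hsx
  have hbW : 0 ≤ b * W := mul_nonneg hb hW0
  -- the row sums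
  have p1 : ∑ a ∈ F, |(Z ^ 2) a i| * |Z a i| ≤ (b * W) * W := cs1 hsx hx hbW hW0
  have p2 : ∑ a ∈ F, |Z a a| * |(Z ^ 2) a i| ≤ s * (b * W) := cs1 h.c.S hsx hs hbW
  have p3 : ∑ a ∈ F, |Z a a| * |Z a i| ≤ s * W := cs1 h.c.S hx hs hW0
  have p4 : ∑ a ∈ F, |(Z ^ 2) a a - 1| * |Z a i| ≤ v * W := cs1 h.c.V hx hv hW0
  have n1 : ∀ f : ι → ℝ, 0 ≤ ∑ a ∈ F, |f a| := fun f => Finset.sum_nonneg fun _ _ => abs_nonneg _
  -- the terms
  have q1 : ∑ a ∈ F, ∑ c ∈ F, |Z a c| * (|(Z ^ 2) a i| * |Z c i|) ≤ t * ((b * W) * W) :=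
    cs2 h.sum_Z_sq2 hsx hx ht hbW hW0
  have q2 : ∑ a ∈ F, ∑ c ∈ F, (|Z a a| * |(Z ^ 2) a i|) * (|Z c c| * |Z c i|) ≤
      (s * (b * W)) * (s * W) := by
    rw [← Finset.sum_mul_sum]
    exact mul_le_mul p2 p3 (Finset.sum_nonneg fun _ _ => by positivity) (by positivity)
  have q3 : ∑ a ∈ F, ∑ c ∈ F, (|(Z ^ 2) a i| * |Z a i|) * (|Z a c| * |Z c c|) ≤
      r * s * ((b * W) * W) := by
    simp only [← Finset.mul_sum]
    refine (sum_le_mul (fun a _ => by positivity) (fun a _ => h.row_diag a)).trans ?_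
    exact mul_le_mul_of_nonneg_left p1 (by positivity)
  have q4 : ∑ a ∈ F, ∑ c ∈ F, (|Z a a| * (|(Z ^ 2) a i| * |Z a i|)) * (Z c c ^ 2) ≤
      (s * ((b * W) * W)) * s ^ 2 := by
    rw [← Finset.sum_mul_sum]
    refine mul_le_mul ?_ h.c.S (Finset.sum_nonneg fun _ _ => sq_nonneg _) (by positivity)
    refine le_trans ?_ (mul_le_mul_of_nonneg_left p1 hs)
    rw [Finset.mul_sum]
    exact Finset.sum_le_sum fun a _ => mul_le_mul_of_nonneg_right (h.diag_le a) (by positivity)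
  have q5 : ∑ a ∈ F, ∑ c ∈ F, (|(Z ^ 2) a a - 1| * Z a i ^ 2) * Z c c ^ 2 ≤
      (r ^ 2 * (W * W)) * s ^ 2 := by
    rw [← Finset.sum_mul_sum]
    refine mul_le_mul ?_ h.c.S (Finset.sum_nonneg fun _ _ => sq_nonneg _) (by positivity)
    rw [hWW, ← h.sum_sq' i, Finset.mul_sum]
    exact Finset.sum_le_sum fun a _ => mul_le_mul_of_nonneg_right (h.g_le a) (sq_nonneg _)
  have q6 : ∑ a ∈ F, ∑ c ∈ F, (|(Z ^ 2) a a - 1| * |Z a i|) * (|Z c c| * |Z c i|) ≤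
      (v * W) * (s * W) := by
    rw [← Finset.sum_mul_sum]
    exact mul_le_mul p4 p3 (Finset.sum_nonneg fun _ _ => by positivity) (by positivity)
  have q7 : ∑ a ∈ F, ∑ c ∈ F, Z c i ^ 2 * (|Z a c| * |(Z ^ 2) a a - 1|) ≤
      r * v * (W * W) := by
    rw [Finset.sum_comm]
    simp only [← Finset.mul_sum]
    refine (sum_le_mul (fun a _ => sq_nonneg _) (fun a _ => h.row_g a)).trans ?_
    rw [h.sum_sq' i, hWW]
  have q8 : ∑ a ∈ F, ∑ c ∈ F, (|Z a a| * |(Z ^ 2) a a - 1|) * (|Z c c| * Z c i ^ 2) ≤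
      (s * v) * (s * (W * W)) := by
    rw [← Finset.sum_mul_sum]
    refine mul_le_mul h.diag_g ?_ (Finset.sum_nonneg fun _ _ => by positivity) (by positivity)
    rw [hWW, ← h.sum_sq' i, Finset.mul_sum]
    exact Finset.sum_le_sum fun a _ => mul_le_mul_of_nonneg_right (h.diag_le a) (sq_nonneg _)
  have q9 : ∑ a ∈ F, ∑ c ∈ F, Z a i ^ 2 * (|(Z ^ 2) a c| * |Z c c|) ≤
      b * r * s * (W * W) := by
    simp only [← Finset.mul_sum]
    refine (sum_le_mul (fun a _ => sq_nonneg _) (fun a _ => h.row_s_diag a)).trans ?_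
    rw [h.sum_sq' i, hWW]
  have q10 : ∑ a ∈ F, ∑ c ∈ F, |(Z ^ 2) a c| * (|Z a i| * |Z c i|) ≤ b ^ 2 * (W * W) :=
    cs2 h.sum_s_sq2 hx hx (sq_nonneg b) hW0 hW0
  simp only [bt1_eq, Finset.sum_add_distrib, ← Finset.mul_sum] at q1 q2 q3 q4 q5 q6 q7 q8 q9 q10 ⊢
  have e : KB b t s v r * (Z ^ 2) i i = 4 * (t * ((b * W) * W)) + 4 * ((s * (b * W)) * (s * W)) +
      8 * (r * s * ((b * W) * W)) + 8 * ((s * ((b * W) * W)) * s ^ 2) +
      2.56 * ((r ^ 2 * (W * W)) * s ^ 2) + 4.8 * ((v * W) * (s * W)) + 5 * (r * v * (W * W)) +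
      5 * ((s * v) * (s * (W * W))) + 4.8 * (b * r * s * (W * W)) + 2.6 * (b ^ 2 * (W * W)) := by
    rw [← hWW]; unfold KB; ring
  rw [e]
  linarith

/-! ### the diagonal terms -/

/-- bound of the main part at `i = a` -/
noncomputable def dm (Z : Matrix ι ι ℝ) (a c : ι) : ℝ :=
  2 * (cc Z a c * (Z ^ 2) a a) + 9 / 4 * (|Z a a| * |(Z ^ 2) a c|) + |Z a c| * |(Z ^ 2) a a - 1| +
    Z a a ^ 2 * |(Z ^ 2) c c - 1|

theorem mn_comm (Z : Matrix ι ι ℝ) (a c i : ι) : mn Z a c i = mn Z c a i := by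
  unfold mn; ring

theorem abs_mn_le (hZ : Z.IsSymm) {a c : ι} (h : PairOK Z a c) : |mn Z a c a| ≤ dm Z a c := by
  have hp := h.1
  have hs : (Z ^ 2) c a = (Z ^ 2) a c := (symm_pow hZ 2).apply a c
  have hz : Z c a = Z a c := hZ.apply a c
  have hw : 0 ≤ (Z ^ 2) a a := Mat.sq_diag_nonneg hZ a
  have e : mn Z a c a = 2 * (Z a c * (Z ^ 2) a a) + 2 * (Z a a * (Z ^ 2) a c) +
      2 * ((Z a a * Z c c) * (Z ^ 2) a a) + 2 * (Z a c * (Z a a * (Z ^ 2) a c)) +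
      (Z a c * (Z a c * ((Z ^ 2) a a - 1)) + Z a a ^ 2 * ((Z ^ 2) c c - 1)) := by
    unfold mn; rw [hs, hz]; ring
  rw [e]
  have k1 : |2 * (Z a c * (Z ^ 2) a a)| = 2 * (|Z a c| * (Z ^ 2) a a) := by
    rw [abs_mul, abs_mul, abs_two, abs_of_nonneg hw]
  have k2 : |2 * (Z a a * (Z ^ 2) a c)| = 2 * (|Z a a| * |(Z ^ 2) a c|) := by
    rw [abs_mul, abs_mul, abs_two]
  have k3 : |2 * ((Z a a * Z c c) * (Z ^ 2) a a)| = 2 * (|Z a a * Z c c| * (Z ^ 2) a a) := by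
    rw [abs_mul, abs_mul, abs_two, abs_of_nonneg hw]
  have k4 : |2 * (Z a c * (Z a a * (Z ^ 2) a c))| ≤ 1 / 4 * (|Z a a| * |(Z ^ 2) a c|) := by
    rw [abs_mul, abs_mul, abs_two, abs_mul (Z a a)]
    have : 0 ≤ |Z a a| * |(Z ^ 2) a c| := by positivity
    nlinarith
  have k5 : |Z a c * (Z a c * ((Z ^ 2) a a - 1))| ≤ |Z a c| * |(Z ^ 2) a a - 1| := by
    rw [abs_mul, abs_mul]
    have : 0 ≤ |Z a c| * |(Z ^ 2) a a - 1| := by positivity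
    nlinarith
  have k6 : |Z a a ^ 2 * ((Z ^ 2) c c - 1)| = Z a a ^ 2 * |(Z ^ 2) c c - 1| := by
    rw [abs_mul, abs_of_nonneg (sq_nonneg _)]
  have a1 := abs_add_le (2 * (Z a c * (Z ^ 2) a a) + 2 * (Z a a * (Z ^ 2) a c) +
      2 * ((Z a a * Z c c) * (Z ^ 2) a a) + 2 * (Z a c * (Z a a * (Z ^ 2) a c)))
      (Z a c * (Z a c * ((Z ^ 2) a a - 1)) + Z a a ^ 2 * ((Z ^ 2) c c - 1))
  have a2 := abs_add_le (2 * (Z a c * (Z ^ 2) a a) + 2 * (Z a a * (Z ^ 2) a c) +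
      2 * ((Z a a * Z c c) * (Z ^ 2) a a)) (2 * (Z a c * (Z a a * (Z ^ 2) a c)))
  have a3 := abs_add_three (2 * (Z a c * (Z ^ 2) a a)) (2 * (Z a a * (Z ^ 2) a c))
    (2 * ((Z a a * Z c c) * (Z ^ 2) a a))
  have a4 := abs_add_le (Z a c * (Z a c * ((Z ^ 2) a a - 1))) (Z a a ^ 2 * ((Z ^ 2) c c - 1))
  unfold dm cc
  have e2 : 2 * ((|Z a c| + |Z a a * Z c c|) * (Z ^ 2) a a) =
      2 * (|Z a c| * (Z ^ 2) a a) + 2 * (|Z a a * Z c c| * (Z ^ 2) a a) := by ring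
  rw [e2]
  linarith

/-- constant of the diagonal terms -/
noncomputable def K2 (b s v w r : ℝ) : ℝ := 2 * ((r + s ^ 2) * w) + 9 / 4 * (b * r * s) + r * v + s ^ 2 * v

theorem Pr.row_dm (h : Pr F Z b t s v w r z n) (a : ι) :
    ∑ c ∈ F, dm Z a c ≤ n * (2 * ((r + s ^ 2) * (Z ^ 2) a a) + 9 / 4 * (b * r * |Z a a|) +
      r * |(Z ^ 2) a a - 1| + s * v * |Z a a|) := by
  have hs := h.c.s0
  have hn := h.n0
  have hw := h.w_nonneg a
  have hd := h.diag_le a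
  have r1 := h.row_one a
  have r2 := h.diag_one
  have r3 := h.row_s_one a
  have r4 := h.g_one
  have hv := h.c.v0
  have e : ∀ c ∈ F, dm Z a c = (2 * (Z ^ 2) a a + |(Z ^ 2) a a - 1|) * |Z a c| +
      2 * (|Z a a| * (Z ^ 2) a a) * |Z c c| + 9 / 4 * |Z a a| * |(Z ^ 2) a c| +
      Z a a ^ 2 * |(Z ^ 2) c c - 1| := by
    intro c _
    unfold dm cc; rw [abs_mul (Z a a)]; ring
  rw [Finset.sum_congr rfl e]
  simp only [Finset.sum_add_distrib, ← Finset.mul_sum]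
  have n1 := abs_nonneg (Z a a)
  have n2 := abs_nonneg ((Z ^ 2) a a - 1)
  have m1 := mul_le_mul_of_nonneg_left r1 (show 0 ≤ 2 * (Z ^ 2) a a + |(Z ^ 2) a a - 1| by linarith)
  have m2 : 2 * (|Z a a| * (Z ^ 2) a a) * ∑ c ∈ F, |Z c c| ≤ 2 * (s * (Z ^ 2) a a) * (n * s) :=
    mul_le_mul (mul_le_mul_of_nonneg_left (mul_le_mul_of_nonneg_right hd hw) (by norm_num)) r2
      (Finset.sum_nonneg fun _ _ => abs_nonneg _) (by positivity)
  have m3 := mul_le_mul_of_nonneg_left r3 (show 0 ≤ 9 / 4 * |Z a a| by linarith)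
  have m4 : Z a a ^ 2 * ∑ c ∈ F, |(Z ^ 2) c c - 1| ≤ (s * |Z a a|) * (n * v) := by
    refine mul_le_mul ?_ r4 (Finset.sum_nonneg fun _ _ => abs_nonneg _) (by positivity)
    rw [← sq_abs, sq]; exact mul_le_mul_of_nonneg_right hd n1
  nlinarith [m1, m2, m3, m4]

theorem Pr.sum_dm (h : Pr F Z b t s v w r z n) {φ : ι → ℝ} {f : ℝ} (hf0 : 0 ≤ f)
    (hf : ∑ i ∈ F, φ i ^ 2 ≤ f ^ 2) :
    ∑ a ∈ F, ∑ c ∈ F, |φ a| * dm Z a c ≤ f * (n * K2 b s v w r) := by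
  have hs := h.c.s0
  have hn := h.n0
  have hb := h.c.b0
  have hv := h.c.v0
  have hr := h.r0
  have p1 := h.sum_phi_w hf0 hf
  have p2 := cs1 hf h.c.S hf0 hs
  have p3 := cs1 hf h.c.V hf0 hv
  have m0 : ∑ a ∈ F, ∑ c ∈ F, |φ a| * dm Z a c ≤ ∑ a ∈ F, |φ a| * (n * (2 * ((r + s ^ 2) *
      (Z ^ 2) a a) + 9 / 4 * (b * r * |Z a a|) + r * |(Z ^ 2) a a - 1| + s * v * |Z a a|)) := by
    refine Finset.sum_le_sum fun a _ => ?_
    rw [← Finset.mul_sum]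
    exact mul_le_mul_of_nonneg_left (h.row_dm a) (abs_nonneg _)
  refine m0.trans ?_
  have e : ∀ a ∈ F, |φ a| * (n * (2 * ((r + s ^ 2) *
      (Z ^ 2) a a) + 9 / 4 * (b * r * |Z a a|) + r * |(Z ^ 2) a a - 1| + s * v * |Z a a|)) =
      (n * (2 * (r + s ^ 2))) * (|φ a| * (Z ^ 2) a a) +
      (n * (9 / 4 * (b * r) + s * v)) * (|φ a| * |Z a a|) +
      (n * r) * (|φ a| * |(Z ^ 2) a a - 1|) := by
    intro a _; ring
  rw [Finset.sum_congr rfl e]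
  simp only [Finset.sum_add_distrib, ← Finset.mul_sum]
  have m1 := mul_le_mul_of_nonneg_left p1 (show 0 ≤ n * (2 * (r + s ^ 2)) by positivity)
  have m2 := mul_le_mul_of_nonneg_left p2 (show 0 ≤ n * (9 / 4 * (b * r) + s * v) by positivity)
  have m3 := mul_le_mul_of_nonneg_left p3 (show 0 ≤ n * r by positivity)
  unfold K2
  linarith

/-! ### the first order sum -/

/-- `∑_{i ∉ {a,c}} φ_i (w_i' - w_i)` -/
noncomputable def fo (F : Finset ι) (Z : Matrix ι ι ℝ) (φ : ι → ℝ) (a c : ι) : ℝ :=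
  ∑ i ∈ (F.erase a).erase c, φ i * ((upd Z a c ^ 2) i i - (Z ^ 2) i i)

/-- its main part -/
def fm (F : Finset ι) (Z : Matrix ι ι ℝ) (φ : ι → ℝ) (a c : ι) : ℝ :=
  ∑ i ∈ F, φ i * mn Z a c i

theorem sum_erase2 {a c : ι} (ha : a ∈ F) (hc : c ∈ F) (hac : a ≠ c) (f : ι → ℝ) :
    ∑ i ∈ (F.erase a).erase c, f i = ∑ i ∈ F, f i - f a - f c := by
  have h1 := Finset.add_sum_erase F f ha
  have h2 := Finset.add_sum_erase (F.erase a) f (Finset.mem_erase.2 ⟨hac.symm, hc⟩)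
  linarith

theorem fo_pt (hZ : Z.IsSymm) {φ : ι → ℝ} {a c : ι} (ha : a ∈ F) (hc : c ∈ F) (hac : a ≠ c)
    (h : PairOK Z a c) :
    |fo F Z φ a c - fm F Z φ a c| ≤ |φ a| * dm Z a c + |φ c| * dm Z c a +
      ∑ i ∈ F, |φ i| * (bt1 Z a c i + bt1 Z c a i) := by
  have h' : PairOK Z c a := by
    refine ⟨by rw [hZ.apply a c]; exact h.1, by rw [mul_comm]; exact h.2⟩
  have e : fo F Z φ a c - fm F Z φ a c =
      ∑ i ∈ (F.erase a).erase c, φ i * ((upd Z a c ^ 2) i i - (Z ^ 2) i i - mn Z a c i) -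
      φ a * mn Z a c a - φ c * mn Z a c c := by
    unfold fo fm
    have := sum_erase2 ha hc hac (fun i => φ i * mn Z a c i)
    simp only [mul_sub, Finset.sum_sub_distrib] at this ⊢
    linarith
  rw [e]
  have b1 : |∑ i ∈ (F.erase a).erase c, φ i * ((upd Z a c ^ 2) i i - (Z ^ 2) i i - mn Z a c i)| ≤
      ∑ i ∈ F, |φ i| * (bt1 Z a c i + bt1 Z c a i) := by
    refine (Finset.abs_sum_le_sum_abs _ _).trans ?_
    have hsub : (F.erase a).erase c ⊆ F := (Finset.erase_subset _ _).trans (Finset.erase_subset _ _)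
    have hnn : ∀ i ∈ F, 0 ≤ |φ i| * (bt1 Z a c i + bt1 Z c a i) := by
      intro i _
      have := cc_nonneg Z a c
      have := cc_nonneg Z c a
      unfold bt1 bh; positivity
    refine (Finset.sum_le_sum fun i hi => ?_).trans
      (Finset.sum_le_sum_of_subset_of_nonneg hsub fun i hi _ => hnn i hi)
    rw [abs_mul]
    have hi1 := Finset.mem_erase.1 hi
    have hi2 := Finset.mem_erase.1 hi1.2
    exact mul_le_mul_of_nonneg_left (upd_w_le hac hZ h i hi2.1 hi1.1) (abs_nonneg _)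
  have b2 : |φ a * mn Z a c a| ≤ |φ a| * dm Z a c := by
    rw [abs_mul]; exact mul_le_mul_of_nonneg_left (abs_mn_le hZ h) (abs_nonneg _)
  have b3 : |φ c * mn Z a c c| ≤ |φ c| * dm Z c a := by
    rw [abs_mul, mn_comm]; exact mul_le_mul_of_nonneg_left (abs_mn_le hZ h') (abs_nonneg _)
  refine (abs_sub _ _).trans ?_
  refine (add_le_add (abs_sub _ _) le_rfl).trans ?_
  linarith

/-- weights: supported on admissible pairs, between `0` and `3/2`, symmetric; `1 - om` has rows of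
`ℓ²` norm at most `G` -/
structure Wt (F : Finset ι) (Z : Matrix ι ι ℝ) (om : ι → ι → ℝ) (G : ℝ) : Prop where
  nonneg : ∀ a ∈ F, ∀ c ∈ F, 0 ≤ om a c
  le : ∀ a ∈ F, ∀ c ∈ F, om a c ≤ 3 / 2
  ok : ∀ a ∈ F, ∀ c ∈ F, om a c ≠ 0 → a ≠ c ∧ PairOK Z a c
  symm : ∀ a c, om a c = om c a
  G0 : 0 ≤ G
  row : ∀ a ∈ F, ∑ c ∈ F, (1 - om a c) ^ 2 ≤ G ^ 2

variable {om : ι → ι → ℝ} {G : ℝ}

theorem Pr.fo_sum (h : Pr F Z b t s v w r z n) (hw : Wt F Z om G) {φ : ι → ℝ} {f : ℝ}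
    (hf0 : 0 ≤ f) (hf : ∑ i ∈ F, φ i ^ 2 ≤ f ^ 2) :
    |∑ a ∈ F, ∑ c ∈ F, om a c * fo F Z φ a c - ∑ a ∈ F, ∑ c ∈ F, om a c * fm F Z φ a c| ≤
      3 * f * (KB b t s v r * w + n * K2 b s v w r) := by
  have hKB : 0 ≤ KB b t s v r := by
    have := h.c.b0; have := h.c.t0; have := h.c.s0; have := h.c.v0; have := h.r0
    unfold KB; positivity
  have dmn : ∀ a c, 0 ≤ dm Z a c := by
    intro a c
    have := h.w_nonneg a
    have := cc_nonneg Z a c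
    unfold dm; positivity
  have btn : ∀ a c i, 0 ≤ bt1 Z a c i := by
    intro a c i
    have := cc_nonneg Z a c
    unfold bt1 bh; positivity
  have h1 : |∑ a ∈ F, ∑ c ∈ F, om a c * fo F Z φ a c - ∑ a ∈ F, ∑ c ∈ F, om a c * fm F Z φ a c| ≤
      ∑ a ∈ F, ∑ c ∈ F, 3 / 2 * (|φ a| * dm Z a c + |φ c| * dm Z c a +
      ∑ i ∈ F, |φ i| * (bt1 Z a c i + bt1 Z c a i)) := by
    rw [← Finset.sum_sub_distrib]
    refine (Finset.abs_sum_le_sum_abs _ _).trans (Finset.sum_le_sum fun a ha => ?_)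
    rw [← Finset.sum_sub_distrib]
    refine (Finset.abs_sum_le_sum_abs _ _).trans (Finset.sum_le_sum fun c hc => ?_)
    rw [← mul_sub, abs_mul, abs_of_nonneg (hw.nonneg a ha c hc)]
    have nn : 0 ≤ |φ a| * dm Z a c + |φ c| * dm Z c a +
      ∑ i ∈ F, |φ i| * (bt1 Z a c i + bt1 Z c a i) := by
      have h1 := mul_nonneg (abs_nonneg (φ a)) (dmn a c)
      have h2 := mul_nonneg (abs_nonneg (φ c)) (dmn c a)
      have h3 : 0 ≤ ∑ i ∈ F, |φ i| * (bt1 Z a c i + bt1 Z c a i) :=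
        Finset.sum_nonneg fun i _ => mul_nonneg (abs_nonneg _) (add_nonneg (btn _ _ _) (btn _ _ _))
      linarith
    by_cases h0 : om a c = 0
    · rw [h0, zero_mul]; linarith
    · obtain ⟨hac, hok⟩ := hw.ok a ha c hc h0
      exact mul_le_mul (hw.le a ha c hc) (fo_pt h.c.symm ha hc hac hok) (abs_nonneg _) (by norm_num)
  refine h1.trans ?_
  have s1 := h.sum_dm hf0 hf
  have s1' : ∑ a ∈ F, ∑ c ∈ F, |φ c| * dm Z c a ≤ f * (n * K2 b s v w r) := by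
    rw [Finset.sum_comm]; exact s1
  have s2 : ∀ i ∈ F, ∑ a ∈ F, ∑ c ∈ F, |φ i| * bt1 Z a c i ≤
      KB b t s v r * (|φ i| * (Z ^ 2) i i) := by
    intro i _
    simp only [← Finset.mul_sum]
    have := mul_le_mul_of_nonneg_left (h.sum_bt1 i) (abs_nonneg (φ i))
    linarith
  have s3 : ∑ a ∈ F, ∑ c ∈ F, ∑ i ∈ F, |φ i| * bt1 Z a c i ≤ KB b t s v r * (f * w) := by
    have : ∑ a ∈ F, ∑ c ∈ F, ∑ i ∈ F, |φ i| * bt1 Z a c i =
        ∑ i ∈ F, ∑ a ∈ F, ∑ c ∈ F, |φ i| * bt1 Z a c i := by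
      rw [Finset.sum_comm' (s := F) (t := fun _ => F) (t' := F) (s' := fun _ => F) (by tauto)]
      rw [Finset.sum_congr rfl fun c _ => Finset.sum_comm]
      rw [Finset.sum_comm]
      exact Finset.sum_congr rfl fun i _ => Finset.sum_comm
    rw [this]
    refine (Finset.sum_le_sum s2).trans ?_
    rw [← Finset.mul_sum]
    exact mul_le_mul_of_nonneg_left (h.sum_phi_w hf0 hf) hKB
  have s3' : ∑ a ∈ F, ∑ c ∈ F, ∑ i ∈ F, |φ i| * bt1 Z c a i ≤ KB b t s v r * (f * w) := by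
    rw [Finset.sum_comm]; exact s3
  simp only [mul_add, Finset.sum_add_distrib, ← Finset.mul_sum] at s1 s1' s3 s3' ⊢
  nlinarith [s1, s1', s3, s3']

end Vale.Agent.P049.TS.A480
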