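import Vale.Agent.P049.TS.Avg480.FO

/-!
Second-order sums `∑_{a,c} om_ac ∑_{i ∉ {a,c}} (w_i' - w_i)²`.
-/

set_option linter.unusedSectionVars false

namespace Vale.Agent.P049.TS.A480

open Matrix Finset

variable {ι : Type*} [Fintype ι] [DecidableEq ι]
variable {F : Finset ι} {Z : Matrix ι ι ℝ} {b t s v w r z n : ℝ}

/-- quadratic bound of the remainder -/
def qq (Z : Matrix ι ι ℝ) (a c i : ι) : ℝ :=
  9 * ((Z ^ 2) a i ^ 2 * Z c i ^ 2) + 16 * (Z c c ^ 2 * ((Z ^ 2) a i ^ 2 * Z a i ^ 2)) +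
    6.56 * (Z c c ^ 4 * (((Z ^ 2) a a - 1) ^ 2 * Z a i ^ 4)) +
    23.04 * (((Z ^ 2) a a - 1) ^ 2 * Z a i ^ 2 * (Z c c ^ 2 * Z c i ^ 2)) +
    50 * (((Z ^ 2) a a - 1) ^ 2 * (Z a c ^ 2 * Z c i ^ 4)) +
    50 * ((Z a a ^ 2 * ((Z ^ 2) a a - 1) ^ 2) * (Z c c ^ 2 * Z c i ^ 4)) +
    23.04 * ((Z ^ 2) a c ^ 2 * (Z c c ^ 2 * Z a i ^ 4)) +
    6.76 * ((Z ^ 2) a c ^ 2 * (Z a i ^ 2 * Z c i ^ 2))

theorem sum7_sq_le (a1 a2 a3 a4 a5 a6 a7 : ℝ) :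
    (a1 + a2 + a3 + a4 + a5 + a6 + a7) ^ 2 ≤
      7 * (a1 ^ 2 + a2 ^ 2 + a3 ^ 2 + a4 ^ 2 + a5 ^ 2 + a6 ^ 2 + a7 ^ 2) := by
  have h := Finset.sum_mul_sq_le_sq_mul_sq (Finset.univ : Finset (Fin 7)) (fun _ => (1 : ℝ))
    ![a1, a2, a3, a4, a5, a6, a7]
  simp [Fin.sum_univ_succ] at h
  nlinarith [h]

/-- half of the linear bound -/
def rh (Z : Matrix ι ι ℝ) (a c i : ι) : ℝ :=
  3 * (|(Z ^ 2) a i| * |Z c i|) + 4 * (|Z c c| * (|(Z ^ 2) a i| * |Z a i|)) +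
    2.56 * (|(Z ^ 2) a a - 1| * (Z c c ^ 2 * Z a i ^ 2)) +
    4.8 * (|(Z ^ 2) a a - 1| * (|Z c c| * (|Z a i| * |Z c i|))) +
    5 * (cc Z a c * (|(Z ^ 2) a a - 1| * Z c i ^ 2)) +
    4.8 * (|(Z ^ 2) a c| * (|Z c c| * Z a i ^ 2)) +
    2.6 * (|(Z ^ 2) a c| * (|Z a i| * |Z c i|))

theorem rh_nonneg (Z : Matrix ι ι ℝ) (a c i : ι) : 0 ≤ rh Z a c i := by
  have := cc_nonneg Z a c
  unfold rh; positivity

theorem rh_sq_le (Z : Matrix ι ι ℝ) (a c i : ι) : rh Z a c i ^ 2 ≤ 7 * qq Z a c i := by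
  unfold rh
  refine (sum7_sq_le _ _ _ _ _ _ _).trans ?_
  refine mul_le_mul_of_nonneg_left ?_ (by norm_num)
  have hc : cc Z a c ^ 2 ≤ 2 * (Z a c ^ 2 + Z a a ^ 2 * Z c c ^ 2) := by
    unfold cc
    have e1 : |Z a c| ^ 2 = Z a c ^ 2 := sq_abs _
    have e2 : |Z a a * Z c c| ^ 2 = Z a a ^ 2 * Z c c ^ 2 := by rw [sq_abs]; ring
    nlinarith [sq_nonneg (|Z a c| - |Z a a * Z c c|)]
  have hc' : (5 * (cc Z a c * (|(Z ^ 2) a a - 1| * Z c i ^ 2))) ^ 2 ≤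
      50 * (((Z ^ 2) a a - 1) ^ 2 * (Z a c ^ 2 * Z c i ^ 4)) +
      50 * ((Z a a ^ 2 * ((Z ^ 2) a a - 1) ^ 2) * (Z c c ^ 2 * Z c i ^ 4)) := by
    have e : (5 * (cc Z a c * (|(Z ^ 2) a a - 1| * Z c i ^ 2))) ^ 2 =
        25 * cc Z a c ^ 2 * (((Z ^ 2) a a - 1) ^ 2 * Z c i ^ 4) := by
      rw [mul_pow, mul_pow, mul_pow, sq_abs]; ring
    rw [e]
    have nn : 0 ≤ ((Z ^ 2) a a - 1) ^ 2 * Z c i ^ 4 := by positivity
    nlinarith [mul_le_mul_of_nonneg_right hc nn]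
  have f1 : (3 * (|(Z ^ 2) a i| * |Z c i|)) ^ 2 = 9 * ((Z ^ 2) a i ^ 2 * Z c i ^ 2) := by
    rw [mul_pow, mul_pow, sq_abs, sq_abs]; ring
  have f2 : (4 * (|Z c c| * (|(Z ^ 2) a i| * |Z a i|))) ^ 2 =
      16 * (Z c c ^ 2 * ((Z ^ 2) a i ^ 2 * Z a i ^ 2)) := by
    rw [mul_pow, mul_pow, mul_pow, sq_abs, sq_abs, sq_abs]; ring
  have f3 : (2.56 * (|(Z ^ 2) a a - 1| * (Z c c ^ 2 * Z a i ^ 2))) ^ 2 ≤
      6.56 * (Z c c ^ 4 * (((Z ^ 2) a a - 1) ^ 2 * Z a i ^ 4)) := by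
    have e : (2.56 * (|(Z ^ 2) a a - 1| * (Z c c ^ 2 * Z a i ^ 2))) ^ 2 =
        6.5536 * (Z c c ^ 4 * (((Z ^ 2) a a - 1) ^ 2 * Z a i ^ 4)) := by
      rw [mul_pow, mul_pow, mul_pow, sq_abs]; ring
    rw [e]
    exact mul_le_mul_of_nonneg_right (by norm_num) (by positivity)
  have f4 : (4.8 * (|(Z ^ 2) a a - 1| * (|Z c c| * (|Z a i| * |Z c i|)))) ^ 2 =
      23.04 * (((Z ^ 2) a a - 1) ^ 2 * Z a i ^ 2 * (Z c c ^ 2 * Z c i ^ 2)) := by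
    rw [mul_pow, mul_pow, mul_pow, mul_pow, sq_abs, sq_abs, sq_abs, sq_abs]; ring
  have f6 : (4.8 * (|(Z ^ 2) a c| * (|Z c c| * Z a i ^ 2))) ^ 2 =
      23.04 * ((Z ^ 2) a c ^ 2 * (Z c c ^ 2 * Z a i ^ 4)) := by
    rw [mul_pow, mul_pow, mul_pow, sq_abs, sq_abs]; ring
  have f7 : (2.6 * (|(Z ^ 2) a c| * (|Z a i| * |Z c i|))) ^ 2 =
      6.76 * ((Z ^ 2) a c ^ 2 * (Z a i ^ 2 * Z c i ^ 2)) := by
    rw [mul_pow, mul_pow, mul_pow, sq_abs, sq_abs, sq_abs]; ring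
  rw [f1, f2, f4, f6, f7]
  unfold qq
  linarith

/-- main second order part -/
def cm (Z : Matrix ι ι ℝ) (a c i : ι) : ℝ :=
  Z c i ^ 2 * ((Z ^ 2) a a - 1) + Z a i ^ 2 * ((Z ^ 2) c c - 1)

theorem upd_w_sq_le {a c : ι} (hac : a ≠ c) (hZ : Z.IsSymm) (h : PairOK Z a c) (i : ι)
    (hia : i ≠ a) (hic : i ≠ c) :
    ((upd Z a c ^ 2) i i - (Z ^ 2) i i) ^ 2 ≤
      5 / 4 * cm Z a c i ^ 2 + 70 * (qq Z a c i + qq Z c a i) := by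
  have h1 := upd_w_le hac hZ h i hia hic
  have hcc := cc_le h
  have hc0 := cc_nonneg Z a c
  have hc1 : cc Z c a = cc Z a c := (cc_comm hZ a c).symm
  have hs : (Z ^ 2) c a = (Z ^ 2) a c := (symm_pow hZ 2).apply a c
  set Δ := (upd Z a c ^ 2) i i - (Z ^ 2) i i with hΔ
  have h2 : |Δ - cm Z a c i| ≤ rh Z a c i + rh Z c a i := by
    have e : Δ - cm Z a c i = (Δ - mn Z a c i) + (2 * ((Z ^ 2) a i * Z c i) +
        2 * (Z c c * ((Z ^ 2) a i * Z a i)) + (2 * ((Z ^ 2) c i * Z a i) +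
        2 * (Z a a * ((Z ^ 2) c i * Z c i)))) := by
      unfold mn cm; ring
    rw [e]
    refine (abs_add_le _ _).trans ?_
    have k1 : |2 * ((Z ^ 2) a i * Z c i)| = 2 * (|(Z ^ 2) a i| * |Z c i|) := by
      rw [abs_mul, abs_mul, abs_two]
    have k2 : |2 * (Z c c * ((Z ^ 2) a i * Z a i))| =
        2 * (|Z c c| * (|(Z ^ 2) a i| * |Z a i|)) := by
      rw [abs_mul, abs_mul, abs_mul, abs_two]
    have k3 : |2 * ((Z ^ 2) c i * Z a i)| = 2 * (|(Z ^ 2) c i| * |Z a i|) := by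
      rw [abs_mul, abs_mul, abs_two]
    have k4 : |2 * (Z a a * ((Z ^ 2) c i * Z c i))| =
        2 * (|Z a a| * (|(Z ^ 2) c i| * |Z c i|)) := by
      rw [abs_mul, abs_mul, abs_mul, abs_two]
    have a1 := abs_add_three (2 * ((Z ^ 2) a i * Z c i)) (2 * (Z c c * ((Z ^ 2) a i * Z a i)))
      (2 * ((Z ^ 2) c i * Z a i) + 2 * (Z a a * ((Z ^ 2) c i * Z c i)))
    have a2 := abs_add_le (2 * ((Z ^ 2) c i * Z a i)) (2 * (Z a a * ((Z ^ 2) c i * Z c i)))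
    have b1 : bt1 Z a c i ≤ 1 * (|(Z ^ 2) a i| * |Z c i|) +
        2 * (|Z c c| * (|(Z ^ 2) a i| * |Z a i|)) +
        2.56 * (|(Z ^ 2) a a - 1| * (Z c c ^ 2 * Z a i ^ 2)) +
        4.8 * (|(Z ^ 2) a a - 1| * (|Z c c| * (|Z a i| * |Z c i|))) +
        5 * (cc Z a c * (|(Z ^ 2) a a - 1| * Z c i ^ 2)) +
        4.8 * (|(Z ^ 2) a c| * (|Z c c| * Z a i ^ 2)) +
        2.6 * (|(Z ^ 2) a c| * (|Z a i| * |Z c i|)) := by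
      unfold bt1 bh
      have m1 : 0 ≤ |(Z ^ 2) a i| * |Z c i| := by positivity
      have m2 : 0 ≤ |Z c c| * (|(Z ^ 2) a i| * |Z a i|) := by positivity
      nlinarith [mul_le_mul_of_nonneg_right hcc m1, mul_le_mul_of_nonneg_right hcc m2]
    have b2 : bt1 Z c a i ≤ 1 * (|(Z ^ 2) c i| * |Z a i|) +
        2 * (|Z a a| * (|(Z ^ 2) c i| * |Z c i|)) +
        2.56 * (|(Z ^ 2) c c - 1| * (Z a a ^ 2 * Z c i ^ 2)) +
        4.8 * (|(Z ^ 2) c c - 1| * (|Z a a| * (|Z c i| * |Z a i|))) +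
        5 * (cc Z c a * (|(Z ^ 2) c c - 1| * Z a i ^ 2)) +
        4.8 * (|(Z ^ 2) c a| * (|Z a a| * Z c i ^ 2)) +
        2.6 * (|(Z ^ 2) c a| * (|Z c i| * |Z a i|)) := by
      unfold bt1 bh
      have m1 : 0 ≤ |(Z ^ 2) c i| * |Z a i| := by positivity
      have m2 : 0 ≤ |Z a a| * (|(Z ^ 2) c i| * |Z c i|) := by positivity
      rw [← hc1] at hcc
      nlinarith [mul_le_mul_of_nonneg_right hcc m1, mul_le_mul_of_nonneg_right hcc m2]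
    unfold rh
    linarith
  have q1 := rh_sq_le Z a c i
  have q2 := rh_sq_le Z c a i
  have n1 := rh_nonneg Z a c i
  have n2 := rh_nonneg Z c a i
  have h3 : (Δ - cm Z a c i) ^ 2 ≤ (rh Z a c i + rh Z c a i) ^ 2 := by
    rw [← sq_abs (Δ - cm Z a c i)]
    exact pow_le_pow_left₀ (abs_nonneg _) h2 2
  have h4 : Δ ^ 2 ≤ 5 / 4 * cm Z a c i ^ 2 + 5 * (Δ - cm Z a c i) ^ 2 := by
    nlinarith [sq_nonneg (cm Z a c i / 2 - 2 * (Δ - cm Z a c i))]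
  nlinarith [sq_nonneg (rh Z a c i - rh Z c a i)]

end Vale.Agent.P049.TS.A480
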