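import Vale.Agent.P049.TS.Avg480.SO

/-!
Evaluation of the second-order sums.
-/

set_option linter.unusedSectionVars false

namespace Vale.Agent.P049.TS.A480

open Matrix Finset

variable {ι : Type*} [Fintype ι] [DecidableEq ι]
variable {F : Finset ι} {Z : Matrix ι ι ℝ} {b t s v w r z n y : ℝ}

namespace Pr

theorem row_four (h : Pr F Z b t s v w r z n) (a : ι) :
    ∑ i ∈ F, Z a i ^ 4 ≤ z ^ 2 * (Z ^ 2) a a := by
  rw [← h.sum_sq a, Finset.mul_sum]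
  refine Finset.sum_le_sum fun i _ => ?_
  have := h.ent_sq_le a i
  calc Z a i ^ 4 = Z a i ^ 2 * Z a i ^ 2 := by ring
    _ ≤ z ^ 2 * Z a i ^ 2 := mul_le_mul_of_nonneg_right this (sq_nonneg _)

theorem row_four_le (h : Pr F Z b t s v w r z n) (a : ι) :
    ∑ i ∈ F, (Z a i ^ 2) ^ 2 ≤ (z * r) ^ 2 := by
  have h1 := h.row_four a
  have h2 := mul_le_mul_of_nonneg_left (h.w_le a) (sq_nonneg z)
  have e : ∑ i ∈ F, (Z a i ^ 2) ^ 2 = ∑ i ∈ F, Z a i ^ 4 :=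
    Finset.sum_congr rfl fun i _ => by ring
  rw [e, mul_pow]
  linarith

/-- `(P φ)_a ≤ z r |φ|` -/
theorem P_le (h : Pr F Z b t s v w r z n) {φ : ι → ℝ} {f : ℝ} (hf0 : 0 ≤ f)
    (hf : ∑ i ∈ F, φ i ^ 2 ≤ f ^ 2) (a : ι) : ∑ c ∈ F, Z a c ^ 2 * |φ c| ≤ z * r * f := by
  have := cs1 (h.row_four_le a) hf (mul_nonneg h.z0 h.r0) hf0
  refine le_trans (le_of_eq ?_) this
  exact Finset.sum_congr rfl fun c _ => by rw [abs_of_nonneg (sq_nonneg (Z a c))]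

theorem Pw_le (h : Pr F Z b t s v w r z n) (a : ι) :
    ∑ c ∈ F, Z a c ^ 2 * (Z ^ 2) c c ≤ z * r * w := by
  have := h.P_le h.c.w0 h.c.W a
  refine le_trans (le_of_eq ?_) this
  exact Finset.sum_congr rfl fun c _ => by rw [abs_of_nonneg (h.w_nonneg c)]

/-- `‖P φ‖² ≤ z r f · f w` -/
theorem P_sq (h : Pr F Z b t s v w r z n) {φ : ι → ℝ} {f : ℝ} (hf0 : 0 ≤ f)
    (hf : ∑ i ∈ F, φ i ^ 2 ≤ f ^ 2) :
    ∑ a ∈ F, (∑ c ∈ F, Z a c ^ 2 * |φ c|) ^ 2 ≤ (z * r * f) * (f * w) := by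
  have hnn : ∀ a, 0 ≤ ∑ c ∈ F, Z a c ^ 2 * |φ c| := fun a =>
    Finset.sum_nonneg fun _ _ => by positivity
  have h1 : ∑ a ∈ F, (∑ c ∈ F, Z a c ^ 2 * |φ c|) ^ 2 ≤
      (z * r * f) * ∑ a ∈ F, ∑ c ∈ F, Z a c ^ 2 * |φ c| := by
    rw [Finset.mul_sum]
    refine Finset.sum_le_sum fun a _ => ?_
    rw [sq]
    exact mul_le_mul_of_nonneg_right (h.P_le hf0 hf a) (hnn a)
  refine h1.trans (mul_le_mul_of_nonneg_left ?_
    (mul_nonneg (mul_nonneg h.z0 h.r0) hf0))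
  rw [Finset.sum_comm]
  refine le_trans (le_of_eq ?_) (h.sum_phi_w hf0 hf)
  refine Finset.sum_congr rfl fun c _ => ?_
  rw [← Finset.sum_mul, h.sum_sq', mul_comm]

theorem g2w (h : Pr F Z b t s v w r z n) :
    ∑ a ∈ F, ((Z ^ 2) a a - 1) ^ 2 * (Z ^ 2) a a ≤ r ^ 2 * v ^ 2 := by
  refine (sum_le_mul (fun a _ => sq_nonneg _) (fun a _ => h.w_le a)).trans ?_
  exact mul_le_mul_of_nonneg_left h.c.V (sq_nonneg r)

theorem diag4 (h : Pr F Z b t s v w r z n) : ∑ c ∈ F, Z c c ^ 4 ≤ s ^ 2 * s ^ 2 := by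
  refine le_trans ?_ (mul_le_mul_of_nonneg_left h.c.S (sq_nonneg s))
  rw [Finset.mul_sum]
  refine Finset.sum_le_sum fun c _ => ?_
  have : Z c c ^ 2 ≤ s ^ 2 := by
    rw [← sq_abs]; exact pow_le_pow_left₀ (abs_nonneg _) (h.diag_le c) 2
  calc Z c c ^ 4 = Z c c ^ 2 * Z c c ^ 2 := by ring
    _ ≤ s ^ 2 * Z c c ^ 2 := mul_le_mul_of_nonneg_right this (sq_nonneg _)

theorem q1 (h : Pr F Z b t s v w r z n) :
    ∑ a ∈ F, ∑ c ∈ F, ∑ i ∈ F, (Z ^ 2) a i ^ 2 * Z c i ^ 2 ≤ b ^ 2 * w ^ 2 := by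
  have e : ∑ a ∈ F, ∑ c ∈ F, ∑ i ∈ F, (Z ^ 2) a i ^ 2 * Z c i ^ 2 =
      ∑ i ∈ F, (∑ a ∈ F, (Z ^ 2) a i ^ 2) * ∑ c ∈ F, Z c i ^ 2 := by
    rw [Finset.sum_congr rfl fun c _ => Finset.sum_comm, Finset.sum_comm]
    refine Finset.sum_congr rfl fun i _ => ?_
    rw [Finset.sum_mul_sum]
  rw [e]
  refine le_trans ?_ (mul_le_mul_of_nonneg_left h.c.W (sq_nonneg b))
  rw [Finset.mul_sum]
  refine Finset.sum_le_sum fun i _ => ?_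
  have h1 := h.sum_s_sq' i
  rw [mul_pow, Real.sq_sqrt (h.w_nonneg i)] at h1
  rw [h.sum_sq']
  calc _ ≤ b ^ 2 * (Z ^ 2) i i * (Z ^ 2) i i := mul_le_mul_of_nonneg_right h1 (h.w_nonneg i)
    _ = _ := by ring

theorem q2 (h : Pr F Z b t s v w r z n) :
    ∑ a ∈ F, ∑ c ∈ F, ∑ i ∈ F, Z c c ^ 2 * ((Z ^ 2) a i ^ 2 * Z a i ^ 2) ≤
      s ^ 2 * (r ^ 2 * w ^ 2) := by
  have e : ∑ a ∈ F, ∑ c ∈ F, ∑ i ∈ F, Z c c ^ 2 * ((Z ^ 2) a i ^ 2 * Z a i ^ 2) =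
      (∑ c ∈ F, Z c c ^ 2) * ∑ a ∈ F, ∑ i ∈ F, (Z ^ 2) a i ^ 2 * Z a i ^ 2 := by
    simp only [← Finset.mul_sum, ← Finset.sum_mul]
  rw [e]
  refine mul_le_mul h.c.S ?_ (Finset.sum_nonneg fun _ _ => Finset.sum_nonneg fun _ _ => by
    positivity) (sq_nonneg s)
  refine le_trans ?_ (mul_le_mul_of_nonneg_left h.c.W (sq_nonneg r))
  rw [Finset.mul_sum]
  refine Finset.sum_le_sum fun a _ => ?_
  have : ∀ i ∈ F, (Z ^ 2) a i ^ 2 * Z a i ^ 2 ≤ r ^ 2 * (Z ^ 2) a a * Z a i ^ 2 := by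
    intro i _
    refine mul_le_mul_of_nonneg_right ?_ (sq_nonneg _)
    refine (h.s_sq_le a i).trans ?_
    rw [mul_comm]
    exact mul_le_mul_of_nonneg_right (h.w_le i) (h.w_nonneg a)
  refine (Finset.sum_le_sum this).trans ?_
  rw [← Finset.mul_sum, h.sum_sq]
  exact le_of_eq (by ring)

theorem q3 (h : Pr F Z b t s v w r z n) :
    ∑ a ∈ F, ∑ c ∈ F, ∑ i ∈ F, Z c c ^ 4 * (((Z ^ 2) a a - 1) ^ 2 * Z a i ^ 4) ≤
      (s ^ 2 * s ^ 2) * (z ^ 2 * (r ^ 2 * v ^ 2)) := by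
  have e : ∑ a ∈ F, ∑ c ∈ F, ∑ i ∈ F, Z c c ^ 4 * (((Z ^ 2) a a - 1) ^ 2 * Z a i ^ 4) =
      (∑ c ∈ F, Z c c ^ 4) * ∑ a ∈ F, ((Z ^ 2) a a - 1) ^ 2 * ∑ i ∈ F, Z a i ^ 4 := by
    simp only [← Finset.mul_sum, ← Finset.sum_mul]
  rw [e]
  refine mul_le_mul h.diag4 ?_ (Finset.sum_nonneg fun _ _ => mul_nonneg (sq_nonneg _)
    (Finset.sum_nonneg fun _ _ => by positivity)) (by positivity)
  refine le_trans ?_ (mul_le_mul_of_nonneg_left h.g2w (sq_nonneg z))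
  rw [Finset.mul_sum]
  refine Finset.sum_le_sum fun a _ => ?_
  calc _ ≤ ((Z ^ 2) a a - 1) ^ 2 * (z ^ 2 * (Z ^ 2) a a) :=
        mul_le_mul_of_nonneg_left (h.row_four a) (sq_nonneg _)
    _ = _ := by ring

theorem q4 (h : Pr F Z b t s v w r z n) :
    ∑ a ∈ F, ∑ c ∈ F, ∑ i ∈ F, ((Z ^ 2) a a - 1) ^ 2 * Z a i ^ 2 * (Z c c ^ 2 * Z c i ^ 2) ≤
      (z ^ 2 * s ^ 2) * (r ^ 2 * v ^ 2) := by
  have e : ∑ a ∈ F, ∑ c ∈ F, ∑ i ∈ F, ((Z ^ 2) a a - 1) ^ 2 * Z a i ^ 2 *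
      (Z c c ^ 2 * Z c i ^ 2) ≤
      ∑ a ∈ F, ∑ c ∈ F, ∑ i ∈ F, ((Z ^ 2) a a - 1) ^ 2 * Z a i ^ 2 * (Z c c ^ 2 * z ^ 2) := by
    refine Finset.sum_le_sum fun a _ => Finset.sum_le_sum fun c _ => Finset.sum_le_sum fun i _ => ?_
    exact mul_le_mul_of_nonneg_left (mul_le_mul_of_nonneg_left (h.ent_sq_le c i) (sq_nonneg _))
      (by positivity)
  refine e.trans ?_
  have e2 : ∑ a ∈ F, ∑ c ∈ F, ∑ i ∈ F, ((Z ^ 2) a a - 1) ^ 2 * Z a i ^ 2 * (Z c c ^ 2 * z ^ 2) =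
      (z ^ 2 * ∑ c ∈ F, Z c c ^ 2) * ∑ a ∈ F, ((Z ^ 2) a a - 1) ^ 2 * ∑ i ∈ F, Z a i ^ 2 := by
    simp only [Finset.mul_sum, Finset.sum_mul]
    refine Finset.sum_congr rfl fun a _ => ?_
    rw [Finset.sum_comm]
    exact Finset.sum_congr rfl fun i _ => Finset.sum_congr rfl fun c _ => by ring
  rw [e2]
  simp only [h.sum_sq]
  exact mul_le_mul (mul_le_mul_of_nonneg_left h.c.S (sq_nonneg z)) h.g2w
    (Finset.sum_nonneg fun a _ => mul_nonneg (sq_nonneg _) (h.w_nonneg a)) (by positivity)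

theorem q5 (h : Pr F Z b t s v w r z n) :
    ∑ a ∈ F, ∑ c ∈ F, ∑ i ∈ F, ((Z ^ 2) a a - 1) ^ 2 * (Z a c ^ 2 * Z c i ^ 4) ≤
      v ^ 2 * (z ^ 2 * (z * r * w)) := by
  refine le_trans ?_ (mul_le_mul_of_nonneg_right h.c.V (mul_nonneg (sq_nonneg z)
    (mul_nonneg (mul_nonneg h.z0 h.r0) h.c.w0)))
  rw [Finset.sum_mul]
  refine Finset.sum_le_sum fun a _ => ?_
  simp only [← Finset.mul_sum]
  refine mul_le_mul_of_nonneg_left ?_ (sq_nonneg _)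
  refine le_trans ?_ (mul_le_mul_of_nonneg_left (h.Pw_le a) (sq_nonneg z))
  rw [Finset.mul_sum]
  refine Finset.sum_le_sum fun c _ => ?_
  calc Z a c ^ 2 * ∑ i ∈ F, Z c i ^ 4 ≤ Z a c ^ 2 * (z ^ 2 * (Z ^ 2) c c) :=
        mul_le_mul_of_nonneg_left (h.row_four c) (sq_nonneg _)
    _ = _ := by ring

theorem q5' (h : Pr F Z b t s v w r z n) :
    ∑ a ∈ F, ∑ c ∈ F, ∑ i ∈ F, (Z a a ^ 2 * ((Z ^ 2) a a - 1) ^ 2) * (Z c c ^ 2 * Z c i ^ 4) ≤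
      (s ^ 2 * v ^ 2) * (s ^ 2 * (z ^ 2 * r ^ 2)) := by
  have e : ∑ a ∈ F, ∑ c ∈ F, ∑ i ∈ F, (Z a a ^ 2 * ((Z ^ 2) a a - 1) ^ 2) *
      (Z c c ^ 2 * Z c i ^ 4) =
      (∑ a ∈ F, Z a a ^ 2 * ((Z ^ 2) a a - 1) ^ 2) * ∑ c ∈ F, Z c c ^ 2 * ∑ i ∈ F, Z c i ^ 4 := by
    simp only [← Finset.mul_sum, ← Finset.sum_mul]
  rw [e]
  refine mul_le_mul ?_ ?_ (Finset.sum_nonneg fun _ _ => mul_nonneg (sq_nonneg _)
    (Finset.sum_nonneg fun _ _ => by positivity)) (by positivity)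
  · refine le_trans ?_ (mul_le_mul_of_nonneg_left h.c.V (sq_nonneg s))
    rw [Finset.mul_sum]
    refine Finset.sum_le_sum fun a _ => mul_le_mul_of_nonneg_right ?_ (sq_nonneg _)
    rw [← sq_abs]; exact pow_le_pow_left₀ (abs_nonneg _) (h.diag_le a) 2
  · refine le_trans ?_ (mul_le_mul_of_nonneg_right h.c.S (by positivity))
    rw [Finset.sum_mul]
    refine Finset.sum_le_sum fun c _ => mul_le_mul_of_nonneg_left ?_ (sq_nonneg _)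
    exact (h.row_four c).trans (mul_le_mul_of_nonneg_left (h.w_le c) (sq_nonneg z))

theorem q6 (h : Pr F Z b t s v w r z n) :
    ∑ a ∈ F, ∑ c ∈ F, ∑ i ∈ F, (Z ^ 2) a c ^ 2 * (Z c c ^ 2 * Z a i ^ 4) ≤
      (z ^ 2 * w ^ 2) * (r ^ 2 * s ^ 2) := by
  have e : ∑ a ∈ F, ∑ c ∈ F, ∑ i ∈ F, (Z ^ 2) a c ^ 2 * (Z c c ^ 2 * Z a i ^ 4) ≤
      ∑ a ∈ F, ∑ c ∈ F, (z ^ 2 * (Z ^ 2) a a ^ 2) * (r ^ 2 * Z c c ^ 2) := by
    refine Finset.sum_le_sum fun a _ => Finset.sum_le_sum fun c _ => ?_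
    simp only [← Finset.mul_sum]
    have h1 : (Z ^ 2) a c ^ 2 ≤ (Z ^ 2) a a * r ^ 2 :=
      (h.s_sq_le a c).trans (mul_le_mul_of_nonneg_left (h.w_le c) (h.w_nonneg a))
    have h2 := h.row_four a
    have hwa := h.w_nonneg a
    calc (Z ^ 2) a c ^ 2 * (Z c c ^ 2 * ∑ i ∈ F, Z a i ^ 4)
        ≤ ((Z ^ 2) a a * r ^ 2) * (Z c c ^ 2 * (z ^ 2 * (Z ^ 2) a a)) :=
          mul_le_mul h1 (mul_le_mul_of_nonneg_left h2 (sq_nonneg _))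
            (mul_nonneg (sq_nonneg _) (Finset.sum_nonneg fun _ _ => by positivity)) (by positivity)
      _ = _ := by ring
  refine e.trans ?_
  rw [← Finset.sum_mul_sum, ← Finset.mul_sum, ← Finset.mul_sum]
  exact mul_le_mul (mul_le_mul_of_nonneg_left h.c.W (sq_nonneg z))
    (mul_le_mul_of_nonneg_left h.c.S (sq_nonneg r)) (by positivity) (by positivity)

/-- the delicate term: here the bound `Z_ai² ≤ (1 + |Z_aa|)(1 + |Z_ii|)` is needed -/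
theorem q7 (h : Pr F Z b t s v w r z n) (hy0 : 0 ≤ y) (hy : z * r * w ≤ y ^ 2) :
    ∑ a ∈ F, ∑ c ∈ F, ∑ i ∈ F, (Z ^ 2) a c ^ 2 * (Z a i ^ 2 * Z c i ^ 2) ≤
      (b ^ 2 + s * w) * (w ^ 2 + s * (w * y)) := by
  have hs := h.c.s0
  have hw0 := h.c.w0
  have e : ∑ a ∈ F, ∑ c ∈ F, ∑ i ∈ F, (Z ^ 2) a c ^ 2 * (Z a i ^ 2 * Z c i ^ 2) ≤
      ∑ c ∈ F, (∑ a ∈ F, (1 + |Z a a|) * (Z ^ 2) a c ^ 2) *
        ∑ i ∈ F, (1 + |Z i i|) * Z c i ^ 2 := by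
    rw [Finset.sum_comm]
    refine Finset.sum_le_sum fun c _ => ?_
    rw [Finset.sum_mul_sum]
    refine Finset.sum_le_sum fun a _ => Finset.sum_le_sum fun i _ => ?_
    calc (Z ^ 2) a c ^ 2 * (Z a i ^ 2 * Z c i ^ 2)
        ≤ (Z ^ 2) a c ^ 2 * (((1 + |Z a a|) * (1 + |Z i i|)) * Z c i ^ 2) :=
          mul_le_mul_of_nonneg_left (mul_le_mul_of_nonneg_right (h.ent a i) (sq_nonneg _))
            (sq_nonneg _)
      _ = _ := by ring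
  refine e.trans ?_
  have h1 : ∀ c ∈ F, ∑ a ∈ F, (1 + |Z a a|) * (Z ^ 2) a c ^ 2 ≤
      (b ^ 2 + s * w) * (Z ^ 2) c c := by
    intro c _
    simp only [add_mul, one_mul, Finset.sum_add_distrib]
    refine add_le_add ?_ ?_
    · have h1 := h.sum_s_sq' c
      rwa [mul_pow, Real.sq_sqrt (h.w_nonneg c)] at h1
    · have : ∑ a ∈ F, |Z a a| * (Z ^ 2) a c ^ 2 ≤
          (∑ a ∈ F, |Z a a| * (Z ^ 2) a a) * (Z ^ 2) c c := by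
        rw [Finset.sum_mul]
        refine Finset.sum_le_sum fun a _ => ?_
        rw [mul_assoc]
        exact mul_le_mul_of_nonneg_left (h.s_sq_le a c) (abs_nonneg _)
      exact this.trans (mul_le_mul_of_nonneg_right (h.sum_phi_w hs h.c.S) (h.w_nonneg c))
  have h2 : ∀ c ∈ F, ∑ i ∈ F, (1 + |Z i i|) * Z c i ^ 2 =
      (Z ^ 2) c c + ∑ i ∈ F, Z c i ^ 2 * |Z i i| := by
    intro c _
    rw [← h.sum_sq c, ← Finset.sum_add_distrib]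
    exact Finset.sum_congr rfl fun i _ => by ring
  have h3 : ∑ c ∈ F, (∑ a ∈ F, (1 + |Z a a|) * (Z ^ 2) a c ^ 2) *
      ∑ i ∈ F, (1 + |Z i i|) * Z c i ^ 2 ≤
      ∑ c ∈ F, ((b ^ 2 + s * w) * (Z ^ 2) c c) * ((Z ^ 2) c c + ∑ i ∈ F, Z c i ^ 2 * |Z i i|) := by
    refine Finset.sum_le_sum fun c hc => ?_
    rw [h2 c hc]
    exact mul_le_mul_of_nonneg_right (h1 c hc) (add_nonneg (h.w_nonneg c)
      (Finset.sum_nonneg fun _ _ => by positivity))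
  refine h3.trans ?_
  have h4 : ∑ c ∈ F, ((b ^ 2 + s * w) * (Z ^ 2) c c) *
      ((Z ^ 2) c c + ∑ i ∈ F, Z c i ^ 2 * |Z i i|) =
      (b ^ 2 + s * w) * (∑ c ∈ F, (Z ^ 2) c c ^ 2 +
        ∑ c ∈ F, (Z ^ 2) c c * ∑ i ∈ F, Z c i ^ 2 * |Z i i|) := by
    rw [← Finset.sum_add_distrib, Finset.mul_sum]
    exact Finset.sum_congr rfl fun c _ => by ring
  rw [h4]
  refine mul_le_mul_of_nonneg_left (add_le_add h.c.W ?_) (by positivity)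
  -- `∑_c w_c ν_c = ∑_i |z_i| (P w)_i ≤ s · w y`
  have h5 : ∑ c ∈ F, (Z ^ 2) c c * ∑ i ∈ F, Z c i ^ 2 * |Z i i| =
      ∑ i ∈ F, |Z i i| * ∑ c ∈ F, Z i c ^ 2 * |(Z ^ 2) c c| := by
    simp only [Finset.mul_sum]
    rw [Finset.sum_comm]
    refine Finset.sum_congr rfl fun i _ => Finset.sum_congr rfl fun c _ => ?_
    rw [abs_of_nonneg (h.w_nonneg c), h.c.symm.apply i c]; ring
  rw [h5]
  have h6 : ∑ i ∈ F, (∑ c ∈ F, Z i c ^ 2 * |(Z ^ 2) c c|) ^ 2 ≤ (w * y) ^ 2 := by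
    refine (h.P_sq hw0 h.c.W).trans ?_
    calc (z * r * w) * (w * w) ≤ y ^ 2 * (w * w) :=
          mul_le_mul_of_nonneg_right hy (by positivity)
      _ = _ := by ring
  have h7 := cs1 h.c.S h6 hs (mul_nonneg hw0 hy0)
  refine le_trans (le_of_eq ?_) h7
  refine Finset.sum_congr rfl fun i _ => ?_
  rw [abs_of_nonneg (a := ∑ c ∈ F, Z i c ^ 2 * |(Z ^ 2) c c|)
    (Finset.sum_nonneg fun _ _ => by positivity)]

end Pr

/-- total of `qq` -/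
def QB (b s v w r z y : ℝ) : ℝ :=
  9 * (b ^ 2 * w ^ 2) + 16 * (s ^ 2 * (r ^ 2 * w ^ 2)) +
    6.56 * ((s ^ 2 * s ^ 2) * (z ^ 2 * (r ^ 2 * v ^ 2))) +
    23.04 * ((z ^ 2 * s ^ 2) * (r ^ 2 * v ^ 2)) +
    50 * (v ^ 2 * (z ^ 2 * (z * r * w))) + 50 * ((s ^ 2 * v ^ 2) * (s ^ 2 * (z ^ 2 * r ^ 2))) +
    23.04 * ((z ^ 2 * w ^ 2) * (r ^ 2 * s ^ 2)) +
    6.76 * ((b ^ 2 + s * w) * (w ^ 2 + s * (w * y)))

theorem Pr.sum_qq (h : Pr F Z b t s v w r z n) (hy0 : 0 ≤ y) (hy : z * r * w ≤ y ^ 2) :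
    ∑ a ∈ F, ∑ c ∈ F, ∑ i ∈ F, qq Z a c i ≤ QB b s v w r z y := by
  have h1 := h.q1
  have h2 := h.q2
  have h3 := h.q3
  have h4 := h.q4
  have h5 := h.q5
  have h5' := h.q5'
  have h6 := h.q6
  have h7 := h.q7 hy0 hy
  simp only [qq, Finset.sum_add_distrib, ← Finset.mul_sum] at h1 h2 h3 h4 h5 h5' h6 h7 ⊢
  unfold QB
  linarith

/-- `Σ_{i,a ∈ F} Z_ai⁴` -/
def Q4 (F : Finset ι) (Z : Matrix ι ι ℝ) : ℝ := ∑ a ∈ F, ∑ i ∈ F, Z a i ^ 4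

/-- `Σ_{a ∈ F} (w_a - 1)²` -/
def Vs (F : Finset ι) (Z : Matrix ι ι ℝ) : ℝ := ∑ a ∈ F, ((Z ^ 2) a a - 1) ^ 2

theorem Vs_nonneg (F : Finset ι) (Z : Matrix ι ι ℝ) : 0 ≤ Vs F Z :=
  Finset.sum_nonneg fun _ _ => sq_nonneg _

theorem Pr.sum_cm (h : Pr F Z b t s v w r z n) (hy : z * r * w ≤ y ^ 2) :
    ∑ a ∈ F, ∑ c ∈ F, ∑ i ∈ F, cm Z a c i ^ 2 ≤ 2 * (Q4 F Z * Vs F Z) + 2 * (y ^ 2 * Vs F Z) := by
  set g : ι → ℝ := fun a => (Z ^ 2) a a - 1 with hg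
  have hV0 : 0 ≤ √(Vs F Z) := Real.sqrt_nonneg _
  have hV : ∑ a ∈ F, g a ^ 2 ≤ √(Vs F Z) ^ 2 := by rw [Real.sq_sqrt (Vs_nonneg F Z)]; rfl
  have e : ∑ a ∈ F, ∑ c ∈ F, ∑ i ∈ F, cm Z a c i ^ 2 =
      2 * (Q4 F Z * Vs F Z) + 2 * ∑ i ∈ F, (∑ a ∈ F, Z i a ^ 2 * g a) ^ 2 := by
    have e0 : ∀ a c i, cm Z a c i ^ 2 = g a ^ 2 * Z c i ^ 4 + Z a i ^ 4 * g c ^ 2 +
        2 * ((Z i a ^ 2 * g a) * (Z i c ^ 2 * g c)) := by
      intro a c i; unfold cm; rw [h.c.symm.apply a i, h.c.symm.apply c i]; simp only [hg]; ring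
    simp only [e0, Finset.sum_add_distrib]
    have e1 : ∑ a ∈ F, ∑ c ∈ F, ∑ i ∈ F, g a ^ 2 * Z c i ^ 4 = Q4 F Z * Vs F Z := by
      simp only [← Finset.mul_sum, ← Finset.sum_mul]; rw [mul_comm]; rfl
    have e2 : ∑ a ∈ F, ∑ c ∈ F, ∑ i ∈ F, Z a i ^ 4 * g c ^ 2 = Q4 F Z * Vs F Z := by
      have : ∀ a ∈ F, ∑ c ∈ F, ∑ i ∈ F, Z a i ^ 4 * g c ^ 2 =
          (∑ i ∈ F, Z a i ^ 4) * ∑ c ∈ F, g c ^ 2 := by
        intro a _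
        rw [Finset.sum_comm, Finset.sum_mul_sum]
      rw [Finset.sum_congr rfl this, ← Finset.sum_mul]; rfl
    have e3 : ∑ a ∈ F, ∑ c ∈ F, ∑ i ∈ F, 2 * ((Z i a ^ 2 * g a) * (Z i c ^ 2 * g c)) =
        2 * ∑ i ∈ F, (∑ a ∈ F, Z i a ^ 2 * g a) ^ 2 := by
      rw [Finset.sum_congr rfl fun c _ => Finset.sum_comm, Finset.sum_comm, Finset.mul_sum]
      refine Finset.sum_congr rfl fun i _ => ?_
      rw [sq, Finset.sum_mul_sum, Finset.mul_sum]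
      exact Finset.sum_congr rfl fun a _ => by rw [Finset.mul_sum]
    rw [e1, e2, e3]; ring
  rw [e]
  have h2 : ∑ i ∈ F, (∑ a ∈ F, Z i a ^ 2 * g a) ^ 2 ≤ y ^ 2 * Vs F Z := by
    have h3 := h.P_sq hV0 hV
    have h4 : ∑ i ∈ F, (∑ a ∈ F, Z i a ^ 2 * g a) ^ 2 ≤
        ∑ i ∈ F, (∑ a ∈ F, Z i a ^ 2 * |g a|) ^ 2 := by
      refine Finset.sum_le_sum fun i _ => ?_
      rw [← sq_abs]
      refine pow_le_pow_left₀ (abs_nonneg _) ?_ 2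
      refine (Finset.abs_sum_le_sum_abs _ _).trans (le_of_eq ?_)
      exact Finset.sum_congr rfl fun a _ => by rw [abs_mul, abs_of_nonneg (sq_nonneg _)]
    refine h4.trans (h3.trans ?_)
    have h5 := Real.mul_self_sqrt (Vs_nonneg F Z)
    calc z * r * √(Vs F Z) * (√(Vs F Z) * w) = (z * r * w) * (√(Vs F Z) * √(Vs F Z)) := by ring
      _ ≤ y ^ 2 * Vs F Z := by rw [h5]; exact mul_le_mul_of_nonneg_right hy (Vs_nonneg F Z)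
  linarith

variable {om : ι → ι → ℝ} {G : ℝ}

/-- `∑_{i ∉ {a,c}} (w_i' - w_i)²` -/
noncomputable def so (F : Finset ι) (Z : Matrix ι ι ℝ) (a c : ι) : ℝ :=
  ∑ i ∈ (F.erase a).erase c, ((upd Z a c ^ 2) i i - (Z ^ 2) i i) ^ 2

theorem qq_nonneg (Z : Matrix ι ι ℝ) (a c i : ι) : 0 ≤ qq Z a c i := by unfold qq; positivity

/-- **Second-order lemma** -/
theorem Pr.SO (h : Pr F Z b t s v w r z n) (hw : Wt F Z om G) (hy0 : 0 ≤ y)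
    (hy : z * r * w ≤ y ^ 2) :
    ∑ a ∈ F, ∑ c ∈ F, om a c * so F Z a c ≤
      15 / 4 * ((Q4 F Z + y ^ 2) * Vs F Z) + 210 * QB b s v w r z y := by
  have h1 : ∑ a ∈ F, ∑ c ∈ F, om a c * so F Z a c ≤ ∑ a ∈ F, ∑ c ∈ F, 3 / 2 *
      ∑ i ∈ F, (5 / 4 * cm Z a c i ^ 2 + 70 * (qq Z a c i + qq Z c a i)) := by
    refine Finset.sum_le_sum fun a ha => Finset.sum_le_sum fun c hc => ?_
    have nn : 0 ≤ ∑ i ∈ F, (5 / 4 * cm Z a c i ^ 2 + 70 * (qq Z a c i + qq Z c a i)) :=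
      Finset.sum_nonneg fun i _ => by
        have := qq_nonneg Z a c i; have := qq_nonneg Z c a i; positivity
    by_cases h0 : om a c = 0
    · rw [h0, zero_mul]; positivity
    · obtain ⟨hac, hok⟩ := hw.ok a ha c hc h0
      refine mul_le_mul (hw.le a ha c hc) ?_ (Finset.sum_nonneg fun _ _ => sq_nonneg _)
        (by norm_num)
      unfold so
      have hsub : (F.erase a).erase c ⊆ F :=
        (Finset.erase_subset _ _).trans (Finset.erase_subset _ _)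
      refine (Finset.sum_le_sum fun i hi => ?_).trans
        (Finset.sum_le_sum_of_subset_of_nonneg hsub fun i _ _ => by
          have := qq_nonneg Z a c i; have := qq_nonneg Z c a i; positivity)
      have hi1 := Finset.mem_erase.1 hi
      have hi2 := Finset.mem_erase.1 hi1.2
      exact upd_w_sq_le hac h.c.symm hok i hi2.1 hi1.1
  refine h1.trans ?_
  have s1 := h.sum_qq hy0 hy
  have s1' : ∑ a ∈ F, ∑ c ∈ F, ∑ i ∈ F, qq Z c a i ≤ QB b s v w r z y := by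
    rw [Finset.sum_comm]; exact s1
  have s2 := h.sum_cm hy
  simp only [Finset.sum_add_distrib, ← Finset.mul_sum, mul_add] at s1 s1' s2 ⊢
  nlinarith [s1, s1', s2]

end Vale.Agent.P049.TS.A480
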