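import Vale.Agent.P049.TS.Avg480.VA
import Vale.Agent.P049.TS.Q4.Q4

/-!
Drift of `V₂ = ∑_a w_a²` with uniform weights: all errors relative to `w²`
(`v ≤ ρ w`, `n ≤ ν w`, `s y ≤ η w` with `y² = z r w`).
-/

set_option linter.unusedSectionVars false

namespace Vale.Agent.P049.TS.A480

open Matrix Finset

variable {ι : Type*} [Fintype ι] [DecidableEq ι]
variable {F : Finset ι} {Z Zp Zm : Matrix ι ι ℝ} {b t s v w r z n : ℝ} {G : ℝ}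
variable {forb : ι → ι → Prop} {Δ e ρ ν η : ℝ}

/-- relative error of the drift of `V₂` -/
def EV (b t s v w r z n e G ρ ν η : ℝ) : ℝ :=
  2 * (n * G) + 8 * (e * b) + 8 * (G * s * b) + 4 * (G * v) +
    6 * (4 * ((t + s ^ 2) * b) + 8 * ((r * s + s ^ 3) * b) + 3 * (s ^ 2 * r ^ 2) + 5 * (v * s) +
      5 * ((r + s ^ 2) * v) + 5 * (b * r * s) + 3 * b ^ 2) +
    6 * (2 * (n * (r + s ^ 2)) + 3 * (ν * (b * r * s)) + n * r * ρ + n * s ^ 2 * ρ) +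
    4 * (z * r * w * ρ ^ 2) +
    210 * (9 * b ^ 2 + 16 * (s ^ 2 * r ^ 2) + 7 * (s ^ 4 * (z ^ 2 * (r ^ 2 * ρ ^ 2))) +
      24 * (z ^ 2 * s ^ 2 * (r ^ 2 * ρ ^ 2)) + 50 * (ρ ^ 2 * (z ^ 2 * (z * r * w))) +
      50 * (s ^ 4 * ρ ^ 2 * (z ^ 2 * r ^ 2)) + 24 * (z ^ 2 * (r ^ 2 * s ^ 2)) +
      7 * ((b ^ 2 + s * w) * (1 + η)))

theorem QB_le {y : ℝ} (hb : 0 ≤ b) (hs : 0 ≤ s) (hv : 0 ≤ v) (hw : 0 ≤ w) (hr : 0 ≤ r)
    (hz : 0 ≤ z) (hy : 0 ≤ y) (hρ : 0 ≤ ρ) (hη : 0 ≤ η)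
    (h1 : v ≤ ρ * w) (h2 : s * y ≤ η * w) :
    QB b s v w r z y ≤ w ^ 2 * (9 * b ^ 2 + 16 * (s ^ 2 * r ^ 2) +
      7 * (s ^ 4 * (z ^ 2 * (r ^ 2 * ρ ^ 2))) +
      24 * (z ^ 2 * s ^ 2 * (r ^ 2 * ρ ^ 2)) + 50 * (ρ ^ 2 * (z ^ 2 * (z * r * w))) +
      50 * (s ^ 4 * ρ ^ 2 * (z ^ 2 * r ^ 2)) + 24 * (z ^ 2 * (r ^ 2 * s ^ 2)) +
      7 * ((b ^ 2 + s * w) * (1 + η))) := by
  have hvv : v ^ 2 ≤ ρ ^ 2 * w ^ 2 := by
    rw [← mul_pow]; exact pow_le_pow_left₀ hv h1 2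
  have m3 : (s ^ 2 * s ^ 2) * (z ^ 2 * (r ^ 2 * v ^ 2)) ≤
      (s ^ 2 * s ^ 2) * (z ^ 2 * (r ^ 2 * (ρ ^ 2 * w ^ 2))) := by gcongr
  have m4 : (z ^ 2 * s ^ 2) * (r ^ 2 * v ^ 2) ≤ (z ^ 2 * s ^ 2) * (r ^ 2 * (ρ ^ 2 * w ^ 2)) := by
    gcongr
  have m5 : v ^ 2 * (z ^ 2 * (z * r * w)) ≤ (ρ ^ 2 * w ^ 2) * (z ^ 2 * (z * r * w)) := by gcongr
  have m6 : (s ^ 2 * v ^ 2) * (s ^ 2 * (z ^ 2 * r ^ 2)) ≤
      (s ^ 2 * (ρ ^ 2 * w ^ 2)) * (s ^ 2 * (z ^ 2 * r ^ 2)) := by gcongr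
  have m8 : (b ^ 2 + s * w) * (w ^ 2 + s * (w * y)) ≤ (b ^ 2 + s * w) * (w ^ 2 * (1 + η)) := by
    have : w ^ 2 + s * (w * y) ≤ w ^ 2 * (1 + η) := by
      have := mul_le_mul_of_nonneg_left h2 hw
      nlinarith
    gcongr
  have p3 : 0 ≤ (s ^ 2 * s ^ 2) * (z ^ 2 * (r ^ 2 * (ρ ^ 2 * w ^ 2))) := by positivity
  have p4 : 0 ≤ (z ^ 2 * s ^ 2) * (r ^ 2 * (ρ ^ 2 * w ^ 2)) := by positivity
  have p7 : 0 ≤ (z ^ 2 * w ^ 2) * (r ^ 2 * s ^ 2) := by positivity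
  have p8 : 0 ≤ (b ^ 2 + s * w) * (w ^ 2 * (1 + η)) := by positivity
  have e : w ^ 2 * (9 * b ^ 2 + 16 * (s ^ 2 * r ^ 2) +
      7 * (s ^ 4 * (z ^ 2 * (r ^ 2 * ρ ^ 2))) +
      24 * (z ^ 2 * s ^ 2 * (r ^ 2 * ρ ^ 2)) + 50 * (ρ ^ 2 * (z ^ 2 * (z * r * w))) +
      50 * (s ^ 4 * ρ ^ 2 * (z ^ 2 * r ^ 2)) + 24 * (z ^ 2 * (r ^ 2 * s ^ 2)) +
      7 * ((b ^ 2 + s * w) * (1 + η))) =
      9 * (b ^ 2 * w ^ 2) + 16 * (s ^ 2 * (r ^ 2 * w ^ 2)) +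
      7 * ((s ^ 2 * s ^ 2) * (z ^ 2 * (r ^ 2 * (ρ ^ 2 * w ^ 2)))) +
      24 * ((z ^ 2 * s ^ 2) * (r ^ 2 * (ρ ^ 2 * w ^ 2))) +
      50 * ((ρ ^ 2 * w ^ 2) * (z ^ 2 * (z * r * w))) +
      50 * ((s ^ 2 * (ρ ^ 2 * w ^ 2)) * (s ^ 2 * (z ^ 2 * r ^ 2))) +
      24 * ((z ^ 2 * w ^ 2) * (r ^ 2 * s ^ 2)) +
      7 * ((b ^ 2 + s * w) * (w ^ 2 * (1 + η))) := by ring
  rw [e]
  unfold QB
  linarith

theorem FE_le (hb : 0 ≤ b) (ht : 0 ≤ t) (hs : 0 ≤ s) (hv : 0 ≤ v) (hw : 0 ≤ w) (hr : 0 ≤ r)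
    (hn : 0 ≤ n) (_hG : 0 ≤ G) (_hρ : 0 ≤ ρ) (_hν : 0 ≤ ν) (h1 : v ≤ ρ * w) (h2 : n ≤ ν * w) :
    2 * w * FE b t s v w r n G ≤ w ^ 2 * (8 * (G * s * b) + 4 * (G * v) +
    6 * (4 * ((t + s ^ 2) * b) + 8 * ((r * s + s ^ 3) * b) + 3 * (s ^ 2 * r ^ 2) + 5 * (v * s) +
      5 * ((r + s ^ 2) * v) + 5 * (b * r * s) + 3 * b ^ 2) +
    6 * (2 * (n * (r + s ^ 2)) + 3 * (ν * (b * r * s)) + n * r * ρ + n * s ^ 2 * ρ)) := by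
  have m1 : w * n * (b * r * s) ≤ w ^ 2 * (ν * (b * r * s)) := by
    have : w * n ≤ w ^ 2 * ν := by nlinarith
    have h0 : 0 ≤ b * r * s := by positivity
    nlinarith [mul_le_mul_of_nonneg_right this h0]
  have m2 : w * n * (r * v) ≤ w ^ 2 * (n * r * ρ) := by
    have : w * v ≤ w ^ 2 * ρ := by nlinarith
    have h0 : 0 ≤ n * r := by positivity
    nlinarith [mul_le_mul_of_nonneg_left this h0]
  have m3 : w * n * (s ^ 2 * v) ≤ w ^ 2 * (n * s ^ 2 * ρ) := by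
    have : w * v ≤ w ^ 2 * ρ := by nlinarith
    have h0 : 0 ≤ n * s ^ 2 := by positivity
    nlinarith [mul_le_mul_of_nonneg_left this h0]
  have p1 : 0 ≤ w ^ 2 * (s ^ 2 * r ^ 2) := by positivity
  have p2 : 0 ≤ w ^ 2 * (v * s) := by positivity
  have p3 : 0 ≤ w ^ 2 * (b * r * s) := by positivity
  have p4 : 0 ≤ w ^ 2 * b ^ 2 := by positivity
  have p5 : 0 ≤ w * n * (b * r * s) := by positivity
  have e : 2 * w * FE b t s v w r n G = w ^ 2 * (8 * (G * s * b)) + w ^ 2 * (4 * (G * v)) +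
      6 * (4 * (w ^ 2 * ((t + s ^ 2) * b)) + 8 * (w ^ 2 * ((r * s + s ^ 3) * b)) +
        2.56 * (w ^ 2 * (s ^ 2 * r ^ 2)) + 4.8 * (w ^ 2 * (v * s)) +
        5 * (w ^ 2 * ((r + s ^ 2) * v)) + 4.8 * (w ^ 2 * (b * r * s)) + 2.6 * (w ^ 2 * b ^ 2)) +
      6 * (2 * (w ^ 2 * (n * (r + s ^ 2))) + 9 / 4 * (w * n * (b * r * s)) + w * n * (r * v) +
        w * n * (s ^ 2 * v)) := by
    unfold FE KB K2; ring
  rw [e]
  have e2 : w ^ 2 * (8 * (G * s * b) + 4 * (G * v) +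
    6 * (4 * ((t + s ^ 2) * b) + 8 * ((r * s + s ^ 3) * b) + 3 * (s ^ 2 * r ^ 2) + 5 * (v * s) +
      5 * ((r + s ^ 2) * v) + 5 * (b * r * s) + 3 * b ^ 2) +
    6 * (2 * (n * (r + s ^ 2)) + 3 * (ν * (b * r * s)) + n * r * ρ + n * s ^ 2 * ρ)) =
      w ^ 2 * (8 * (G * s * b)) + w ^ 2 * (4 * (G * v)) +
      6 * (4 * (w ^ 2 * ((t + s ^ 2) * b)) + 8 * (w ^ 2 * ((r * s + s ^ 3) * b)) +
        3 * (w ^ 2 * (s ^ 2 * r ^ 2)) + 5 * (w ^ 2 * (v * s)) +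
        5 * (w ^ 2 * ((r + s ^ 2) * v)) + 5 * (w ^ 2 * (b * r * s)) + 3 * (w ^ 2 * b ^ 2)) +
      6 * (2 * (w ^ 2 * (n * (r + s ^ 2))) + 3 * (w ^ 2 * (ν * (b * r * s))) +
        w ^ 2 * (n * r * ρ) + w ^ 2 * (n * s ^ 2 * ρ)) := by ring
  rw [e2]
  linarith

theorem Vt_zero (F : Finset ι) (Z : Matrix ι ι ℝ) : Vt 0 F Z = ∑ a ∈ F, (Z ^ 2) a a ^ 2 := by
  unfold Vt
  exact Finset.sum_congr rfl fun a _ => by rw [sub_zero]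

theorem Pr.Vs_eq (h : Pr F Z b t s v w r z n) :
    Vs F Z = Vt 0 F Z - 2 * (Z ^ 2).trace + F.card := by
  have h1 : ∑ a ∈ F, (Z ^ 2) a a = (Z ^ 2).trace :=
    D12.sum_diag_F ((show D12.Supp F Z from h.c.supp).pow 1)
  have e : ∀ a ∈ F, ((Z ^ 2) a a - 1) ^ 2 = ((Z ^ 2) a a - 0) ^ 2 - 2 * (Z ^ 2) a a + 1 := by
    intro a _; ring
  unfold Vs Vt
  rw [Finset.sum_congr rfl e, Finset.sum_add_distrib, Finset.sum_sub_distrib, ← Finset.mul_sum, h1]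
  simp

/-- the `T₁`-term is harmless -/
theorem Sg.T1_term {m ε : ℝ} (hg : Sg F Z m ε) (he : ε = 1 ∨ ε = -1) (hm0 : 0 < m) (hm1 : m < 1)
    {τ : ℝ} (h1 : ε * Z.trace ≤ 0) (h2 : |Z.trace| ≤ τ) :
    Z.trace * ∑ i ∈ F, (Z ^ 2) i i * (Z ^ 3) i i ≤ τ * ∑ i ∈ F, (Z ^ 2) i i ^ 2 := by
  have hN : (0 : ℝ) < F.card := by exact_mod_cast hg.card
  have he2 : ε * ε = 1 := by rcases he with h | h <;> rw [h] <;> norm_num
  have hW : 0 ≤ ∑ i ∈ F, (Z ^ 2) i i ^ 2 := Finset.sum_nonneg fun _ _ => sq_nonneg _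
  have h3 : -∑ i ∈ F, (Z ^ 2) i i ^ 2 ≤ ε * ∑ i ∈ F, (Z ^ 2) i i * (Z ^ 3) i i := by
    rw [← Finset.sum_neg_distrib, Finset.mul_sum]
    refine Finset.sum_le_sum fun i hi => ?_
    have hw := Mat.sq_diag_nonneg hg.symm i
    have h4 := hg.diag 1 hi
    norm_num at h4
    have h5 : 0 ≤ (ε + m) / F.card + (1 - m) * (Z ^ 2) i i := by
      rcases he with rfl | rfl
      · have : 0 ≤ (1 + m) / (F.card : ℝ) := by positivity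
        have := mul_nonneg (by linarith : (0 : ℝ) ≤ 1 - m) hw
        linarith
      · have h6 := hg.col_sum 1 hi
        have h7 : (1 : ℝ) ≤ F.card * (Z ^ 2) i i := by
          have h8 := Finset.sum_mul_sq_le_sq_mul_sq F (fun _ => (1 : ℝ)) (fun j => (Z ^ 1) j i)
          have h9 := hg.col_sq 1 hi
          simp only [one_mul, one_pow, Finset.sum_const, nsmul_eq_mul, mul_one] at h8
          rw [h6, h9] at h8
          norm_num at h8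
          exact h8
        have h10 : (-1 + m) / (F.card : ℝ) + (1 - m) * (Z ^ 2) i i =
            (1 - m) * (F.card * (Z ^ 2) i i - 1) / F.card := by
          field_simp; ring
        rw [h10]
        have := mul_nonneg (by linarith : (0 : ℝ) ≤ 1 - m) (by linarith :
          (0 : ℝ) ≤ F.card * (Z ^ 2) i i - 1)
        positivity
    nlinarith
  have h4 : Z.trace * ∑ i ∈ F, (Z ^ 2) i i * (Z ^ 3) i i =
      (ε * Z.trace) * (ε * ∑ i ∈ F, (Z ^ 2) i i * (Z ^ 3) i i) := by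
    linear_combination -(Z.trace * ∑ i ∈ F, (Z ^ 2) i i * (Z ^ 3) i i) * he2
  rw [h4]
  have h5 : -(ε * Z.trace) ≤ τ := by
    refine le_trans (neg_le_abs _) ?_
    rw [abs_mul]
    rcases he with rfl | rfl
    · simpa using h2
    · simpa using h2
  nlinarith

/-- **Drift of `V₂`, uniform weights, errors relative to `w²`** -/
theorem Pr.V2_abs (hp : Pr F Zp b t s v w r z n) (hm : Pr F Zm b t s v w r z n)
    (hf : ForbOK F forb Δ) (hZ : Z = Zp ∨ Z = Zm)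
    (hG0 : 0 ≤ G) (hG : 1 + Δ + 128 * r ^ 2 + 128 * s ^ 4 ≤ G ^ 2)
    (he0 : 0 ≤ e) (he : (((F ×ˢ F) \ adm F forb Zp Zm).card : ℝ) ≤ e ^ 2)
    (hρ : 0 ≤ ρ) (hν : 0 ≤ ν) (hη : 0 ≤ η) (h1 : v ≤ ρ * w) (h2 : n ≤ ν * w)
    (h3 : s ^ 2 * (z * r * w) ≤ η ^ 2 * w ^ 2) {m ε τ : ℝ} (hg : Sg F Z m ε)
    (hε : ε = 1 ∨ ε = -1) (hm0 : 0 < m) (hm1 : m < 1) (hT : ε * Z.trace ≤ 0)
    (hτ : |Z.trace| ≤ τ) :
    ∑ p ∈ adm F forb Zp Zm,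
      (Vt 0 ((F.erase p.1).erase p.2) (upd Z p.1 p.2) - Vt 0 F Z) ≤
      -2 * (F.card : ℝ) * Vt 0 F Z + 4 * (((Z ^ 2).trace - F.card) * Vt 0 F Z) +
      8 * (Z ^ 2).trace + 15 / 4 * (Q4 F Z * (Vt 0 F Z - 2 * (Z ^ 2).trace + F.card)) +
      w ^ 2 * (8 * τ + EV b t s v w r z n e G ρ ν η) := by
  have h : Pr F Z b t s v w r z n := by
    rcases hZ with rfl | rfl
    · exact hp
    · exact hm
  have hb := h.c.b0
  have ht := h.c.t0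
  have hs := h.c.s0
  have hv := h.c.v0
  have hw := h.c.w0
  have hr := h.r0
  have hz := h.z0
  have hn := h.n0
  have hV2 : Vt 0 F Z ≤ w ^ 2 := by rw [Vt_zero]; exact h.c.W
  have hV0 := Vt_nonneg 0 F Z
  set y := √(z * r * w) with hy
  have hy0 : 0 ≤ y := Real.sqrt_nonneg _
  have hyy : y ^ 2 = z * r * w := Real.sq_sqrt (by positivity)
  have hsy : s * y ≤ η * w := by
    refine abs_le_of_sq_le_sq' ?_ (by positivity) |>.2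
    rw [mul_pow, mul_pow, hyy]; exact h3
  have hz0 : HOK F (0 : Matrix ι ι ℝ) 0 := HOK.zero F
  have d := hp.V_drift_adm (k := 0) hm hf hZ hz0 (fun _ _ => rfl) hG0
    (by simpa using hG) he0 he hy0 hyy.ge 0 hw hV2
  simp only [Matrix.zero_apply, sub_zero, one_mul, Matrix.mul_zero, Matrix.zero_mul, mul_zero,
    Finset.sum_const_zero, zero_mul] at d
  have hQ := QB_le hb hs hv hw hr hz hy0 hρ hη h1 hsy
  have hF := FE_le (G := G) (ρ := ρ) (ν := ν) hb ht hs hv hw hr hn hG0 hρ hν h1 h2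
  have hT1 := Sg.T1_term hg hε hm0 hm1 hT hτ
  have hτ0 : 0 ≤ τ := (abs_nonneg _).trans hτ
  have e0 : ∑ i ∈ F, (Z ^ 2) i i ^ 2 = Vt 0 F Z := (Vt_zero F Z).symm
  rw [e0] at hT1
  have hT2 : τ * Vt 0 F Z ≤ τ * w ^ 2 := mul_le_mul_of_nonneg_left hV2 hτ0
  have e1 : ∑ i ∈ F, (Z ^ 2) i i * (Z ^ 2) i i = Vt 0 F Z := by
    rw [← e0]; exact Finset.sum_congr rfl fun i _ => (sq _).symm
  rw [e1, h.Vs_eq, hyy] at d
  have hVs : Vt 0 F Z - 2 * (Z ^ 2).trace + F.card ≤ ρ ^ 2 * w ^ 2 := by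
    rw [← h.Vs_eq]
    refine h.c.V.trans ?_
    rw [← mul_pow]
    exact pow_le_pow_left₀ hv h1 2
  have hzrw : 0 ≤ z * r * w := by positivity
  have m1 : z * r * w * (Vt 0 F Z - 2 * (Z ^ 2).trace + F.card) ≤
      w ^ 2 * (z * r * w * ρ ^ 2) := by
    have := mul_le_mul_of_nonneg_left hVs hzrw
    linarith
  have m2 : n * G * Vt 0 F Z ≤ w ^ 2 * (n * G) := by
    have := mul_le_mul_of_nonneg_left hV2 (mul_nonneg hn hG0)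
    linarith
  have p1 : 0 ≤ w ^ 2 * (z * r * w * ρ ^ 2) := by positivity
  unfold EV
  clear_value y
  clear hG hyy hy h3 hg hε hT hτ hVs
  linarith

end Vale.Agent.P049.TS.A480
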