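import Vale.Agent.P049.TS.Avg480.VD
import Vale.Agent.P049.TS.Final.AdmOK

/-!
Weights on the admissible pairs, and the drift of `V_τ` in the form of a sum over `adm`.
-/

set_option linter.unusedSectionVars false

namespace Vale.Agent.P049.TS.A480

open Matrix Finset

variable {ι : Type*} [Fintype ι] [DecidableEq ι]
variable {F : Finset ι} {Z Zp Zm : Matrix ι ι ℝ} {b t s v w r z n y : ℝ} {om : ι → ι → ℝ} {G : ℝ}
variable {forb : ι → ι → Prop} {Δ H e : ℝ}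

open Classical in
/-- the weights `1 - h` on `A` -/
noncomputable def omA (A : Finset (ι × ι)) (h : ι → ι → ℝ) (a c : ι) : ℝ :=
  if (a, c) ∈ A then 1 - h a c else 0

theorem sum_omA {A : Finset (ι × ι)} (hA : A ⊆ F ×ˢ F) (h f : ι → ι → ℝ) :
    ∑ a ∈ F, ∑ c ∈ F, omA A h a c * f a c = ∑ p ∈ A, (1 - h p.1 p.2) * f p.1 p.2 := by
  classical
  rw [← Finset.sum_product' F F fun a c => omA A h a c * f a c]
  rw [← Finset.sum_subset hA (f := fun p : ι × ι => omA A h p.1 p.2 * f p.1 p.2)]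
  · refine Finset.sum_congr rfl fun p hp => ?_
    unfold omA
    rw [if_pos hp]
  · intro p _ hp
    show omA A h p.1 p.2 * f p.1 p.2 = 0
    unfold omA
    rw [if_neg hp, zero_mul]

/-- `Σ (1 - om) f = Σ_A h f + Σ_E f` -/
theorem sum_one_sub_omA {A : Finset (ι × ι)} (hA : A ⊆ F ×ˢ F) (h f : ι → ι → ℝ) :
    ∑ a ∈ F, ∑ c ∈ F, (1 - omA A h a c) * f a c =
      ∑ p ∈ A, h p.1 p.2 * f p.1 p.2 + ∑ p ∈ (F ×ˢ F) \ A, f p.1 p.2 := by
  have h1 := sum_omA hA h f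
  have h2 : ∑ a ∈ F, ∑ c ∈ F, f a c = ∑ p ∈ F ×ˢ F, f p.1 p.2 :=
    (Finset.sum_product' F F f).symm
  have h3 : ∑ p ∈ (F ×ˢ F) \ A, f p.1 p.2 + ∑ p ∈ A, f p.1 p.2 = ∑ p ∈ F ×ˢ F, f p.1 p.2 :=
    Finset.sum_sdiff hA
  simp only [sub_mul, one_mul, Finset.sum_sub_distrib] at h1 ⊢
  rw [h1, h2]
  linarith

/-- the tilt: symmetric, at most `1/2`, with rows of norm at most `H` -/
structure HOK (F : Finset ι) (h : ι → ι → ℝ) (H : ℝ) : Prop where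
  symm : ∀ a c, h a c = h c a
  half : ∀ a c, |h a c| ≤ 1 / 2
  row : ∀ a ∈ F, ∑ c ∈ F, h a c ^ 2 ≤ H ^ 2

theorem HOK.zero (F : Finset ι) : HOK F (fun _ _ => (0 : ℝ)) 0 :=
  ⟨fun _ _ => rfl, fun _ _ => by norm_num, fun _ _ => by simp⟩

theorem Pr.row_mj2 (hp : Pr F Zp b t s v w r z n) (hm : Pr F Zm b t s v w r z n)
    (hf : ForbOK F forb Δ) {a : ι} (ha : a ∈ F) :
    ∑ c ∈ F, mj2 forb Zp Zm a c ≤ 1 + Δ + 128 * r ^ 2 + 128 * s ^ 4 := by
  classical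
  have key : ∀ {Z : Matrix ι ι ℝ}, Pr F Z b t s v w r z n →
      ∑ c ∈ F, (64 * Z a c ^ 2 + 64 * (Z a a ^ 2 * Z c c ^ 2)) ≤ 64 * r ^ 2 + 64 * s ^ 4 := by
    intro Z h
    rw [Finset.sum_add_distrib, ← Finset.mul_sum, ← Finset.mul_sum, ← Finset.mul_sum, h.sum_sq]
    have h2 := h.w_le a
    have h3 : Z a a ^ 2 ≤ s ^ 2 := by
      rw [← sq_abs]; exact pow_le_pow_left₀ (abs_nonneg _) (h.diag_le a) 2
    have h4 : Z a a ^ 2 * ∑ c ∈ F, Z c c ^ 2 ≤ s ^ 2 * s ^ 2 :=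
      mul_le_mul h3 h.c.S (Finset.sum_nonneg fun _ _ => sq_nonneg _) (sq_nonneg _)
    nlinarith
  have k1 := key hp
  have k2 := key hm
  have e1 : ∑ c ∈ F, (if a = c then (1 : ℝ) else 0) ≤ 1 := by
    rw [Finset.sum_ite_eq, if_pos ha]
  have e2 : ∑ c ∈ F, (if forb a c then (1 : ℝ) else 0) ≤ Δ := by
    rw [Finset.sum_ite, Finset.sum_const_zero, add_zero, Finset.sum_const, nsmul_eq_mul, mul_one]
    exact hf.card a ha
  unfold mj2
  rw [Finset.sum_add_distrib, Finset.sum_add_distrib, Finset.sum_add_distrib]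
  linarith

theorem mj2_nonneg (forb : ι → ι → Prop) (Zp Zm : Matrix ι ι ℝ) (a c : ι) :
    0 ≤ mj2 forb Zp Zm a c := by
  classical
  unfold mj2
  have i1 : (0 : ℝ) ≤ if a = c then 1 else 0 := by split_ifs <;> norm_num
  have i2 : (0 : ℝ) ≤ if forb a c then 1 else 0 := by split_ifs <;> norm_num
  positivity

/-- the weights `1 - h` on the admissible pairs -/
theorem Pr.wt (hp : Pr F Zp b t s v w r z n) (hm : Pr F Zm b t s v w r z n)
    (hf : ForbOK F forb Δ) (hZ : Z = Zp ∨ Z = Zm) {h : ι → ι → ℝ} (hh : HOK F h H) (hG0 : 0 ≤ G)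
    (hG : 1 + Δ + 128 * r ^ 2 + 128 * s ^ 4 + H ^ 2 ≤ G ^ 2) :
    Wt F Z (omA (adm F forb Zp Zm) h) G where
  nonneg := by
    intro a _ c _
    unfold omA
    split_ifs
    · have := (abs_le.1 (hh.half a c)).2; linarith
    · exact le_rfl
  le := by
    intro a _ c _
    unfold omA
    split_ifs
    · have := (abs_le.1 (hh.half a c)).1; linarith
    · norm_num
  ok := by
    intro a _ c _ h0
    unfold omA at h0
    by_cases hp' : (a, c) ∈ adm F forb Zp Zm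
    · have h1 := mem_adm.1 hp'
      rcases hZ with rfl | rfl
      · exact ⟨h1.2.1, h1.2.2.2.1⟩
      · exact ⟨h1.2.1, h1.2.2.2.2⟩
    · rw [if_neg hp'] at h0; exact absurd rfl h0
  symm := by
    intro a c
    have e : (a, c) ∈ adm F forb Zp Zm ↔ (c, a) ∈ adm F forb Zp Zm := by
      rw [mem_adm, mem_adm]
      simp only [PairOK]
      rw [hp.c.symm.apply a c, hm.c.symm.apply a c, mul_comm (Zp c c), mul_comm (Zm c c)]
      constructor
      · rintro ⟨⟨h1, h2⟩, h3, h4, h5⟩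
        exact ⟨⟨h2, h1⟩, Ne.symm h3, fun h' => h4 (hf.symm _ _ h'), h5⟩
      · rintro ⟨⟨h1, h2⟩, h3, h4, h5⟩
        exact ⟨⟨h2, h1⟩, Ne.symm h3, fun h' => h4 (hf.symm _ _ h'), h5⟩
    unfold omA
    by_cases hc : (a, c) ∈ adm F forb Zp Zm
    · rw [if_pos hc, if_pos (e.1 hc), hh.symm]
    · rw [if_neg hc, if_neg fun h' => hc (e.2 h')]
  G0 := hG0
  row := by
    intro a ha
    refine le_trans ?_ hG
    have h1 : ∀ c ∈ F, (1 - omA (adm F forb Zp Zm) h a c) ^ 2 ≤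
        mj2 forb Zp Zm a c + h a c ^ 2 := by
      intro c hc
      unfold omA
      have n1 := mj2_nonneg forb Zp Zm a c
      have n2 := sq_nonneg (h a c)
      by_cases hc' : (a, c) ∈ adm F forb Zp Zm
      · rw [if_pos hc', sub_sub_cancel]; linarith
      · rw [if_neg hc', sub_zero, one_pow]
        have := (one_le_mj (p := (a, c)) (Finset.mem_sdiff.2
          ⟨Finset.mem_product.2 ⟨ha, hc⟩, hc'⟩)).2
        linarith
    refine (Finset.sum_le_sum h1).trans ?_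
    rw [Finset.sum_add_distrib]
    exact add_le_add (hp.row_mj2 hm hf ha) (hh.row a ha)

/-! ### the non-admissible part of `Z² diag(w-τ) Z` -/

/-- `‖Z diag(φ) Z‖_F ≤ f w` -/
theorem Pr.frob_ZDZ (h : Pr F Z b t s v w r z n) {φ : ι → ℝ} {f : ℝ} (hf0 : 0 ≤ f)
    (hf : ∑ i ∈ F, φ i ^ 2 ≤ f ^ 2) :
    ∑ a ∈ F, ∑ c ∈ F, (∑ i ∈ F, φ i * (Z a i * Z c i)) ^ 2 ≤ (f * w) ^ 2 := by
  have e : ∑ a ∈ F, ∑ c ∈ F, (∑ i ∈ F, φ i * (Z a i * Z c i)) ^ 2 =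
      ∑ i ∈ F, ∑ j ∈ F, φ i * φ j * (Z ^ 2) i j ^ 2 := by
    have h1 : ∀ i j, ∑ a ∈ F, Z a i * Z a j = (Z ^ 2) i j := by
      intro i j
      rw [sq, Matrix.mul_apply, h.sum_univ i]
      · exact Finset.sum_congr rfl fun a _ => by rw [h.c.symm.apply i a]
      · intro a ha; rw [ha, zero_mul]
    have h2 : ∀ a c, (∑ i ∈ F, φ i * (Z a i * Z c i)) ^ 2 =
        ∑ i ∈ F, ∑ j ∈ F, (φ i * φ j) * ((Z a i * Z a j) * (Z c i * Z c j)) := by
      intro a c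
      rw [sq, Finset.sum_mul_sum]
      exact Finset.sum_congr rfl fun i _ => Finset.sum_congr rfl fun j _ => by ring
    simp only [h2]
    rw [Finset.sum_congr rfl fun a _ => Finset.sum_comm (s := F) (t := F)]
    rw [Finset.sum_comm]
    refine Finset.sum_congr rfl fun i _ => ?_
    rw [Finset.sum_congr rfl fun a _ => Finset.sum_comm (s := F) (t := F)]
    rw [Finset.sum_comm]
    refine Finset.sum_congr rfl fun j _ => ?_
    have h3 : (Z ^ 2) i j ^ 2 = (∑ a ∈ F, Z a i * Z a j) * ∑ c ∈ F, Z c i * Z c j := by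
      rw [h1, sq]
    rw [h3, Finset.sum_mul_sum, Finset.mul_sum]
    exact Finset.sum_congr rfl fun a _ => by rw [Finset.mul_sum]
  rw [e]
  have h4 : ∑ i ∈ F, ∑ j ∈ F, φ i * φ j * (Z ^ 2) i j ^ 2 ≤
      ∑ i ∈ F, ∑ j ∈ F, (|φ i| * (Z ^ 2) i i) * (|φ j| * (Z ^ 2) j j) := by
    refine Finset.sum_le_sum fun i _ => Finset.sum_le_sum fun j _ => ?_
    calc φ i * φ j * (Z ^ 2) i j ^ 2 ≤ |φ i * φ j| * (Z ^ 2) i j ^ 2 :=
          mul_le_mul_of_nonneg_right (le_abs_self _) (sq_nonneg _)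
      _ ≤ |φ i * φ j| * ((Z ^ 2) i i * (Z ^ 2) j j) :=
          mul_le_mul_of_nonneg_left (h.s_sq_le i j) (abs_nonneg _)
      _ = _ := by rw [abs_mul]; ring
  refine h4.trans ?_
  rw [← Finset.sum_mul_sum, ← sq]
  exact pow_le_pow_left₀ (Finset.sum_nonneg fun i _ =>
    mul_nonneg (abs_nonneg _) (h.w_nonneg i)) (h.sum_phi_w hf0 hf) 2

/-- `‖Z² diag(φ) Z‖_F ≤ b f w` -/
theorem Pr.frob_rho (h : Pr F Z b t s v w r z n) {φ : ι → ℝ} {f : ℝ} (hf0 : 0 ≤ f)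
    (hf : ∑ i ∈ F, φ i ^ 2 ≤ f ^ 2) :
    ∑ a ∈ F, ∑ c ∈ F, rho F Z φ a c ^ 2 ≤ (b * (f * w)) ^ 2 := by
  have h1 : ∀ c ∈ F, ∑ a ∈ F, rho F Z φ a c ^ 2 ≤
      b ^ 2 * ∑ a ∈ F, (∑ i ∈ F, φ i * (Z a i * Z c i)) ^ 2 := by
    intro c _
    have h2 := h.c.opB (fun a => if a ∈ F then ∑ i ∈ F, φ i * (Z a i * Z c i) else 0)
    have e1 : ∀ a, (Z *ᵥ (fun a => if a ∈ F then ∑ i ∈ F, φ i * (Z a i * Z c i) else 0)) a =
        rho F Z φ a c := by
      intro a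
      simp only [Matrix.mulVec, dotProduct, mul_ite, mul_zero, Finset.sum_ite_mem,
        Finset.univ_inter]
      unfold rho
      simp only [Finset.mul_sum]
      rw [Finset.sum_comm]
      refine Finset.sum_congr rfl fun i _ => ?_
      rw [sq, Matrix.mul_apply, h.sum_univ a]
      · rw [Finset.sum_mul, Finset.mul_sum]
        exact Finset.sum_congr rfl fun x _ => by ring
      · intro x hx; rw [hx, zero_mul]
    set u : ι → ℝ := fun a => if a ∈ F then ∑ i ∈ F, φ i * (Z a i * Z c i) else 0 with hu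
    have e2 : (Z *ᵥ u) ⬝ᵥ (Z *ᵥ u) = ∑ a, rho F Z φ a c ^ 2 := by
      simp only [dotProduct]
      exact Finset.sum_congr rfl fun a _ => by rw [e1 a, sq]
    have e3 : u ⬝ᵥ u = ∑ a ∈ F, (∑ i ∈ F, φ i * (Z a i * Z c i)) ^ 2 := by
      simp only [dotProduct, hu, mul_ite, ite_mul, mul_zero, zero_mul, Finset.sum_ite_mem,
        Finset.univ_inter, Finset.inter_self]
      exact Finset.sum_congr rfl fun a ha => by rw [sq]
    rw [e2, e3] at h2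
    exact (Finset.sum_le_sum_of_subset_of_nonneg (Finset.subset_univ F)
      fun _ _ _ => sq_nonneg _).trans h2
  rw [Finset.sum_comm]
  refine (Finset.sum_le_sum h1).trans ?_
  rw [← Finset.mul_sum, Finset.sum_comm, mul_pow]
  exact mul_le_mul_of_nonneg_left (h.frob_ZDZ hf0 hf) (sq_nonneg b)

/-- the sum over the non-admissible pairs -/
theorem Pr.sum_E_rho (h : Pr F Z b t s v w r z n) {φ : ι → ℝ} {f : ℝ} (hf0 : 0 ≤ f)
    (hf : ∑ i ∈ F, φ i ^ 2 ≤ f ^ 2) {E : Finset (ι × ι)} (hE : E ⊆ F ×ˢ F) (he0 : 0 ≤ e)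
    (he : (E.card : ℝ) ≤ e ^ 2) :
    |∑ p ∈ E, rho F Z φ p.1 p.2| ≤ e * (b * (f * w)) := by
  have h0 : 0 ≤ b * (f * w) := mul_nonneg h.c.b0 (mul_nonneg hf0 h.c.w0)
  have h1 : ∑ p ∈ E, rho F Z φ p.1 p.2 ^ 2 ≤ (b * (f * w)) ^ 2 := by
    refine le_trans ?_ (h.frob_rho hf0 hf)
    rw [← Finset.sum_product' F F fun a c => rho F Z φ a c ^ 2]
    exact Finset.sum_le_sum_of_subset_of_nonneg hE fun _ _ _ => sq_nonneg _
  refine (Finset.abs_sum_le_sum_abs _ _).trans ?_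
  exact cs1_one (F := E) (u := fun p => rho F Z φ p.1 p.2) h1 he h0 he0

/-- the tilted part: `Σ_{a,c} h_ac (Z² diag(φ) Z)_ac = Σ_i φ_i (Z h Z²)_ii` -/
theorem Pr.sum_h_rho (h : Pr F Z b t s v w r z n) (φ : ι → ℝ) {A : Finset (ι × ι)}
    {k : Matrix ι ι ℝ} (hk : k.IsSymm) (h0 : ∀ p : ι × ι, p ∉ A → k p.1 p.2 = 0) :
    ∑ p ∈ A, k p.1 p.2 * rho F Z φ p.1 p.2 = ∑ i ∈ F, φ i * (Z * k * Z ^ 2) i i := by
  have e1 : ∑ p ∈ A, k p.1 p.2 * rho F Z φ p.1 p.2 =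
      ∑ a, ∑ c, k a c * rho F Z φ a c := by
    rw [← Fintype.sum_prod_type' (fun a c => k a c * rho F Z φ a c)]
    refine Finset.sum_subset (Finset.subset_univ A) fun p _ hp => ?_
    rw [h0 p hp, zero_mul]
  have e2 : ∀ i, (Z * k * Z ^ 2) i i = ∑ a, ∑ c, k a c * ((Z ^ 2) a i * Z c i) := by
    intro i
    rw [Matrix.mul_apply]
    simp only [Matrix.mul_apply (M := Z) (N := k), Finset.sum_mul]
    refine Finset.sum_congr rfl fun a _ => Finset.sum_congr rfl fun c _ => ?_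
    rw [hk.apply a c, h.c.symm.apply c i]; ring
  rw [e1]
  simp only [e2]
  unfold rho
  simp only [Finset.mul_sum]
  rw [Finset.sum_congr rfl fun a _ => Finset.sum_comm]
  rw [Finset.sum_comm]
  exact Finset.sum_congr rfl fun i _ => Finset.sum_congr rfl fun a _ =>
    Finset.sum_congr rfl fun c _ => by ring

/-- **Drift of `V_τ`, sum over the admissible pairs** -/
theorem Pr.V_drift_adm (hp : Pr F Zp b t s v w r z n) (hm : Pr F Zm b t s v w r z n)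
    (hf : ForbOK F forb Δ) (hZ : Z = Zp ∨ Z = Zm) {k : Matrix ι ι ℝ}
    (hh : HOK F k H) (hk0 : ∀ p : ι × ι, p ∉ adm F forb Zp Zm → k p.1 p.2 = 0)
    (hG0 : 0 ≤ G) (hG : 1 + Δ + 128 * r ^ 2 + 128 * s ^ 4 + H ^ 2 ≤ G ^ 2)
    (he0 : 0 ≤ e) (he : (((F ×ˢ F) \ adm F forb Zp Zm).card : ℝ) ≤ e ^ 2)
    (hy0 : 0 ≤ y) (hy : z * r * w ≤ y ^ 2) (τ : ℝ) {f : ℝ} (hf0 : 0 ≤ f)
    (hfV : Vt τ F Z ≤ f ^ 2) :
    ∑ p ∈ adm F forb Zp Zm, (1 - k p.1 p.2) *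
      (Vt τ ((F.erase p.1).erase p.2) (upd Z p.1 p.2) - Vt τ F Z) ≤
      -2 * ((F.card : ℝ) - n * G) * Vt τ F Z + 8 * ((Z ^ 2).trace - τ * F.card) +
      8 * (Z.trace * ∑ i ∈ F, ((Z ^ 2) i i - τ) * (Z ^ 3) i i) +
      4 * (((Z ^ 2).trace - F.card) * ∑ i ∈ F, ((Z ^ 2) i i - τ) * (Z ^ 2) i i) -
      8 * ∑ i ∈ F, ((Z ^ 2) i i - τ) * (Z * k * Z ^ 2) i i +
      8 * (e * (b * (f * w))) + 2 * f * FE b t s v w r n G +
      (15 / 4 * ((Q4 F Z + y ^ 2) * Vs F Z) + 210 * QB b s v w r z y) := by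
  have h : Pr F Z b t s v w r z n := by
    rcases hZ with rfl | rfl
    · exact hp
    · exact hm
  have hw := hp.wt hm hf hZ hh hG0 hG
  have h1 := h.V_drift hw hy0 hy τ hf0 hfV
  rw [sum_omA (adm_subset F forb Zp Zm) k
    (fun a c => Vt τ ((F.erase a).erase c) (upd Z a c) - Vt τ F Z),
    sum_one_sub_omA (adm_subset F forb Zp Zm) k (rt τ F Z)] at h1
  have hks : k.IsSymm := by
    ext a c; exact hh.symm c a
  have h2 := h.sum_h_rho (fun i => (Z ^ 2) i i - τ) hks hk0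
  have h3 := h.sum_E_rho (φ := fun i => (Z ^ 2) i i - τ) hf0 hfV
    (E := (F ×ˢ F) \ adm F forb Zp Zm) Finset.sdiff_subset he0 he
  have h4 := (abs_le.1 h3).1
  have e1 : ∑ p ∈ adm F forb Zp Zm, k p.1 p.2 * rt τ F Z p.1 p.2 =
      ∑ i ∈ F, ((Z ^ 2) i i - τ) * (Z * k * Z ^ 2) i i := h2
  have e2 : ∑ p ∈ (F ×ˢ F) \ adm F forb Zp Zm, rt τ F Z p.1 p.2 =
      ∑ p ∈ (F ×ˢ F) \ adm F forb Zp Zm, rho F Z (fun i => (Z ^ 2) i i - τ) p.1 p.2 := rfl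
  rw [e1, e2] at h1
  linarith

end Vale.Agent.P049.TS.A480
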