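import Vale.Agent.P049.TS.Avg480.FM
import Vale.Agent.P049.TS.Avg480.SO2

/-!
Drift of `V_τ = ∑_a (w_a - τ)²` for every `τ` (`τ = 1`: `V`, `τ = 0`: `V₂`).
-/

set_option linter.unusedSectionVars false

namespace Vale.Agent.P049.TS.A480

open Matrix Finset

variable {ι : Type*} [Fintype ι] [DecidableEq ι]
variable {F : Finset ι} {Z : Matrix ι ι ℝ} {b t s v w r z n y : ℝ} {om : ι → ι → ℝ} {G : ℝ}

/-- `V_τ` -/
def Vt (τ : ℝ) (F : Finset ι) (Z : Matrix ι ι ℝ) : ℝ := ∑ a ∈ F, ((Z ^ 2) a a - τ) ^ 2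

theorem Vt_nonneg (τ : ℝ) (F : Finset ι) (Z : Matrix ι ι ℝ) : 0 ≤ Vt τ F Z :=
  Finset.sum_nonneg fun _ _ => sq_nonneg _

/-- exact pointwise identity -/
theorem Vt_upd (τ : ℝ) {a c : ι} (ha : a ∈ F) (hc : c ∈ F) (hac : a ≠ c) :
    Vt τ ((F.erase a).erase c) (upd Z a c) - Vt τ F Z =
      -((Z ^ 2) a a - τ) ^ 2 - ((Z ^ 2) c c - τ) ^ 2 +
      fo F Z (fun i => 2 * ((Z ^ 2) i i - τ)) a c + so F Z a c := by
  have h1 := sum_erase2 ha hc hac (fun i => ((Z ^ 2) i i - τ) ^ 2)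
  have h2 : Vt τ ((F.erase a).erase c) (upd Z a c) =
      ∑ i ∈ (F.erase a).erase c, ((Z ^ 2) i i - τ) ^ 2 +
      fo F Z (fun i => 2 * ((Z ^ 2) i i - τ)) a c + so F Z a c := by
    unfold Vt fo so
    rw [← Finset.sum_add_distrib, ← Finset.sum_add_distrib]
    exact Finset.sum_congr rfl fun i _ => by ring
  rw [h2, h1]
  unfold Vt
  ring

/-- the weights have almost full rows -/
theorem Wt.row_sum (hw : Wt F Z om G) (hn0 : 0 ≤ n) (hn : (F.card : ℝ) ≤ n ^ 2) {a : ι}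
    (ha : a ∈ F) : (F.card : ℝ) - n * G ≤ ∑ c ∈ F, om a c := by
  have h1 := cs1_one (hw.row a ha) hn hw.G0 hn0
  have h2 : ∑ c ∈ F, (1 - om a c) ≤ ∑ c ∈ F, |1 - om a c| :=
    Finset.sum_le_sum fun _ _ => le_abs_self _
  rw [Finset.sum_sub_distrib] at h2
  simp only [Finset.sum_const, nsmul_eq_mul, mul_one] at h2
  linarith

theorem Wt.removal (hw : Wt F Z om G) (hn0 : 0 ≤ n) (hn : (F.card : ℝ) ≤ n ^ 2) {u : ι → ℝ}
    (hu : ∀ a ∈ F, 0 ≤ u a) :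
    2 * ((F.card : ℝ) - n * G) * ∑ a ∈ F, u a ≤ ∑ a ∈ F, ∑ c ∈ F, om a c * (u a + u c) := by
  have h1 : ((F.card : ℝ) - n * G) * ∑ a ∈ F, u a ≤ ∑ a ∈ F, ∑ c ∈ F, om a c * u a := by
    rw [Finset.mul_sum]
    refine Finset.sum_le_sum fun a ha => ?_
    rw [← Finset.sum_mul]
    exact mul_le_mul_of_nonneg_right (hw.row_sum hn0 hn ha) (hu a ha)
  have h2 : ∑ a ∈ F, ∑ c ∈ F, om a c * u c = ∑ a ∈ F, ∑ c ∈ F, om a c * u a :=
    sum_swap hw.symm (fun a _ => u a)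
  simp only [mul_add, Finset.sum_add_distrib]
  rw [h2]
  linarith

/-- `Z² diag(w - τ) Z` -/
def rt (τ : ℝ) (F : Finset ι) (Z : Matrix ι ι ℝ) (a c : ι) : ℝ :=
  rho F Z (fun i => (Z ^ 2) i i - τ) a c

/-- first-order error per unit of `f` -/
noncomputable def FE (b t s v w r n G : ℝ) : ℝ :=
  4 * (G * s * (b * w)) + 2 * (G * v * w) + 3 * (KB b t s v r * w + n * K2 b s v w r)

/-- **Drift of `V_τ`** -/
theorem Pr.V_drift (h : Pr F Z b t s v w r z n) (hw : Wt F Z om G) (hy0 : 0 ≤ y)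
    (hy : z * r * w ≤ y ^ 2) (τ : ℝ) {f : ℝ} (hf0 : 0 ≤ f) (hf : Vt τ F Z ≤ f ^ 2) :
    ∑ a ∈ F, ∑ c ∈ F, om a c * (Vt τ ((F.erase a).erase c) (upd Z a c) - Vt τ F Z) ≤
      -2 * ((F.card : ℝ) - n * G) * Vt τ F Z + 8 * ((Z ^ 2).trace - τ * F.card) +
      8 * (Z.trace * ∑ i ∈ F, ((Z ^ 2) i i - τ) * (Z ^ 3) i i) +
      4 * (((Z ^ 2).trace - F.card) * ∑ i ∈ F, ((Z ^ 2) i i - τ) * (Z ^ 2) i i) -
      8 * ∑ a ∈ F, ∑ c ∈ F, (1 - om a c) * rt τ F Z a c +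
      2 * f * FE b t s v w r n G +
      (15 / 4 * ((Q4 F Z + y ^ 2) * Vs F Z) + 210 * QB b s v w r z y) := by
  set φ : ι → ℝ := fun i => 2 * ((Z ^ 2) i i - τ) with hφ
  have hf2 : ∑ i ∈ F, φ i ^ 2 ≤ (2 * f) ^ 2 := by
    have : ∑ i ∈ F, φ i ^ 2 = 4 * Vt τ F Z := by
      unfold Vt; rw [Finset.mul_sum]
      exact Finset.sum_congr rfl fun i _ => by simp only [hφ]; ring
    rw [this, mul_pow]; linarith
  have h1 := h.FO hw (by positivity : 0 ≤ 2 * f) hf2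
  have h2 := h.SO hw hy0 hy
  have h3 := hw.removal h.n0 h.hn (u := fun a => ((Z ^ 2) a a - τ) ^ 2) fun a _ => sq_nonneg _
  have e1 : ∑ a ∈ F, ∑ c ∈ F, om a c * (Vt τ ((F.erase a).erase c) (upd Z a c) - Vt τ F Z) =
      -(∑ a ∈ F, ∑ c ∈ F, om a c * (((Z ^ 2) a a - τ) ^ 2 + ((Z ^ 2) c c - τ) ^ 2)) +
      ∑ a ∈ F, ∑ c ∈ F, om a c * fo F Z φ a c + ∑ a ∈ F, ∑ c ∈ F, om a c * so F Z a c := by
    rw [← Finset.sum_neg_distrib, ← Finset.sum_add_distrib, ← Finset.sum_add_distrib]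
    refine Finset.sum_congr rfl fun a ha => ?_
    rw [← Finset.sum_neg_distrib, ← Finset.sum_add_distrib, ← Finset.sum_add_distrib]
    refine Finset.sum_congr rfl fun c hc => ?_
    by_cases h0 : om a c = 0
    · rw [h0]; ring
    · rw [Vt_upd τ ha hc (hw.ok a ha c hc h0).1]
      ring
  have e2 : ∑ i ∈ F, φ i = 2 * ((Z ^ 2).trace - τ * F.card) := by
    simp only [hφ]
    rw [← Finset.mul_sum, Finset.sum_sub_distrib,
      D12.sum_diag_F ((show D12.Supp F Z from h.c.supp).pow 1)]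
    simp; ring
  have e3 : ∑ i ∈ F, φ i * (Z ^ 3) i i = 2 * ∑ i ∈ F, ((Z ^ 2) i i - τ) * (Z ^ 3) i i := by
    rw [Finset.mul_sum]; exact Finset.sum_congr rfl fun i _ => by simp only [hφ]; ring
  have e4 : ∑ i ∈ F, φ i * (Z ^ 2) i i = 2 * ∑ i ∈ F, ((Z ^ 2) i i - τ) * (Z ^ 2) i i := by
    rw [Finset.mul_sum]; exact Finset.sum_congr rfl fun i _ => by simp only [hφ]; ring
  have e5 : ∑ a ∈ F, ∑ c ∈ F, (1 - om a c) * rho F Z φ a c =
      2 * ∑ a ∈ F, ∑ c ∈ F, (1 - om a c) * rt τ F Z a c := by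
    rw [Finset.mul_sum]
    refine Finset.sum_congr rfl fun a _ => ?_
    rw [Finset.mul_sum]
    refine Finset.sum_congr rfl fun c _ => ?_
    unfold rt rho
    rw [Finset.mul_sum, Finset.mul_sum, Finset.mul_sum]
    exact Finset.sum_congr rfl fun i _ => by simp only [hφ]; ring
  rw [e2, e3, e4, e5] at h1
  rw [e1]
  have h1' := (abs_le.1 h1).2
  have e6 : (2 * f) * (4 * (G * s * (b * w)) + 2 * (G * v * w) +
        3 * (KB b t s v r * w + n * K2 b s v w r)) = 2 * f * FE b t s v w r n G := rfl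
  rw [e6] at h1'
  have e7 : ∑ a ∈ F, ((Z ^ 2) a a - τ) ^ 2 = Vt τ F Z := rfl
  rw [e7] at h3
  linarith

end Vale.Agent.P049.TS.A480
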